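import Vale.Agent.Lib.P361.Final

open Matrix Filter Topology MeasureTheory Real

namespace Vale.Agent.P361

/-- the ideal Bose occupation sum at inverse temperature `β` and rescaled dispersion `t ε` -/
theorem bose_series {x : ℝ} (hx : 0 ≤ x) :
    ∑' j : ℕ, Real.exp (-((j + 1 : ℕ) * x)) = 1 / (Real.exp x - 1) := by
  rcases hx.eq_or_lt with h | h
  · subst h
    simp only [mul_zero, neg_zero, Real.exp_zero, sub_self, div_zero]
    rw [tsum_eq_zero_of_not_summable]
    intro hs
    have := hs.tendsto_atTop_zero
    simp at this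
  · have h1 : ∀ j : ℕ, Real.exp (-((j + 1 : ℕ) * x)) = Real.exp (-x) * (Real.exp (-x)) ^ j := by
      intro j
      rw [← Real.exp_nat_mul, ← Real.exp_add]
      congr 1
      push_cast; ring
    simp_rw [h1]
    have hq1 : Real.exp (-x) < 1 := by rw [Real.exp_lt_one_iff]; linarith
    rw [tsum_mul_left, tsum_geometric_of_lt_one (Real.exp_pos _).le hq1]
    have h2 : Real.exp (-x) * Real.exp x = 1 := by rw [← Real.exp_add]; simp
    have h3 : 1 < Real.exp x := by rw [Real.one_lt_exp_iff]; exact h
    have h4 : 1 - Real.exp (-x) ≠ 0 := by linarith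
    have h5 : Real.exp x - 1 ≠ 0 := by linarith
    field_simp
    linear_combination h2

/-- passage from the partial sums to the Bose integral -/
theorem bose_integral (n : ℕ) {β t B : ℝ} (hβ : 0 < β) (ht : 0 < t)
    (hB : ∀ J, swd n J β 0 t ≤ B) :
    IntegrableOn (fun k => 1 / (Real.exp (β * (t * disp n k)) - 1)) zone ∧
      (1 / (2 * π) ^ 3) * ∫ k in zone, 1 / (Real.exp (β * (t * disp n k)) - 1) ≤ B := by
  set F : ℕ → (Fin 3 → ℝ) → ℝ := fun j k =>
    Real.exp (-((j + 1 : ℕ) * (β * (0 + t * disp n k)))) with hF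
  have hint : ∀ j, Integrable (F j) (volume.restrict zone) := by
    intro j
    apply ContinuousOn.integrableOn_compact isCompact_zone
    have := disp_continuous n
    fun_prop
  have hpi : (0 : ℝ) < (2 * π) ^ 3 := by positivity
  have hnorm : ∀ j, ∫ k in zone, ‖F j k‖ = ∫ k in zone, F j k := by
    intro j
    congr 1
    ext k
    exact Real.norm_of_nonneg (Real.exp_pos _).le
  have hnn : ∀ j, 0 ≤ ∫ k in zone, F j k := fun j => integral_nonneg fun k => (Real.exp_pos _).le
  have hbound : ∀ J, ∑ j ∈ Finset.range J, ∫ k in zone, F j k ≤ (2 * π) ^ 3 * B := by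
    intro J
    have h1 := hB J
    rw [swd, ← Finset.mul_sum] at h1
    rw [one_div, inv_mul_le_iff₀ hpi] at h1
    exact h1
  have hsum : Summable fun j => ∫ k in zone, F j k :=
    summable_of_sum_range_le hnn hbound
  have hsum' : Summable fun j => ∫ k in zone, ‖F j k‖ := by
    simp_rw [hnorm]; exact hsum
  have hhas := hasSum_integral_of_summable_integral_norm hint hsum'
  have hts : ∀ k, ∑' j, F j k = 1 / (Real.exp (β * (t * disp n k)) - 1) := by
    intro k
    have hx : 0 ≤ β * (0 + t * disp n k) := by
      have := disp_nonneg n k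
      positivity
    have := bose_series hx
    rw [zero_add] at this
    rw [← this]
    simp only [hF, zero_add]
  simp_rw [hts] at hhas
  have hpos : 0 < ∫ k in zone, F 0 k := by
    rw [integral_pos_iff_support_of_nonneg (fun k => (Real.exp_pos _).le) (hint 0)]
    have hsupp : Function.support (F 0) = Set.univ := by
      ext k; simp only [Function.mem_support, Set.mem_univ, iff_true]
      exact (Real.exp_pos _).ne'
    rw [hsupp, Measure.restrict_apply_univ]
    have h3 := volume_zone
    rw [setIntegral_const, smul_eq_mul, mul_one] at h3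
    by_contra hcon
    have h4 : volume zone = 0 := by simpa using hcon
    rw [Measure.real, h4] at h3
    simp only [ENNReal.toReal_zero] at h3
    exact absurd h3 hpi.ne
  have hval : 0 < ∫ k in zone, 1 / (Real.exp (β * (t * disp n k)) - 1) := by
    rw [← hhas.tsum_eq]
    exact lt_of_lt_of_le hpos (hsum.le_tsum 0 fun j _ => hnn j)
  refine ⟨?_, ?_⟩
  · by_contra hni
    have := integral_undef hni
    rw [this] at hval
    exact lt_irrefl _ hval
  · rw [one_div, inv_mul_le_iff₀ hpi, ← hhas.tsum_eq]
    exact hsum.tsum_le_of_sum_range_le hbound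

/-- The self-consistent spin-wave bound with the Bose integral, at every temperature. -/
theorem all_temp (n : ℕ) (hn : 1 ≤ n) {β : ℝ} (hβ : 0 < β)
    (hm : 0 < spontaneousMagnetization n β) :
    IntegrableOn (fun k => 1 / (Real.exp (β * ((n : ℝ) / 2 / spontaneousMagnetization n β *
      disp n k)) - 1)) zone ∧
    spontaneousMagnetization n β / ((n : ℝ) / 2) * ((1 / (2 * π) ^ 3) *
      ∫ k in zone, 1 / (Real.exp (β * ((n : ℝ) / 2 / spontaneousMagnetization n β *
        disp n k)) - 1)) ≤ (n : ℝ) / 2 - spontaneousMagnetization n β := by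
  set m := spontaneousMagnetization n β with hmdef
  have hn' : (0 : ℝ) < (n : ℝ) / 2 := by
    have : (0 : ℝ) < n := by exact_mod_cast hn
    positivity
  have h1 : ∀ J, swd n J β 0 ((n : ℝ) / 2 / m) ≤ ((n : ℝ) / 2 - m) / (m / ((n : ℝ) / 2)) := by
    intro J
    have h2 := magnetization_ineq n hn hβ J hm
    rw [← hmdef] at h2
    rw [le_div_iff₀ (by positivity), mul_comm, div_mul_eq_mul_div, div_le_iff₀ hn']
    linarith
  obtain ⟨h2, h3⟩ := bose_integral n hβ (by positivity) h1
  refine ⟨h2, ?_⟩
  rw [le_div_iff₀ (by positivity)] at h3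
  linarith

end Vale.Agent.P361
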