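import Mathlib

namespace Vale.Agent.P361

/-- The Brillouin zone `[-π, π]³`. -/
def zone : Set (Fin 3 → ℝ) := Set.univ.pi fun _ => Set.Icc (-Real.pi) Real.pi

/-- The one-magnon dispersion `ε_S(k) = 2 S ∑_j (1 - cos k_j)`, with `2 S = n`. -/
noncomputable def disp (n : ℕ) (k : Fin 3 → ℝ) : ℝ := n * ∑ j, (1 - Real.cos (k j))

end Vale.Agent.P361
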