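import Vale.Agent.Lib.P361.FV2
import Vale.Agent.Lib.P361.Defs2

open MeasureTheory Real

namespace Vale.Agent.P361

theorem measurableSet_zone : MeasurableSet zone :=
  MeasurableSet.univ_pi fun _ => measurableSet_Icc

theorem isCompact_zone : IsCompact zone := isCompact_univ_pi fun _ => isCompact_Icc

theorem integral_zone_prod {𝕜 : Type*} [RCLike 𝕜] (f : Fin 3 → ℝ → 𝕜) :
    ∫ k in zone, ∏ i, f i (k i) = ∏ i, ∫ t in Set.Icc (-π) π, f i t := by
  rw [zone, volume_pi, Measure.restrict_pi_pi, integral_fintype_prod_eq_prod]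

theorem volume_zone : ∫ _ in zone, (1 : ℝ) = (2 * π) ^ 3 := by
  have h := integral_zone_prod (fun _ _ => (1 : ℝ))
  simp only [Finset.prod_const_one] at h
  rw [h]
  have h2 : ∫ _ in Set.Icc (-π) π, (1 : ℝ) = 2 * π := by
    rw [setIntegral_const, smul_eq_mul, mul_one, Measure.real, Real.volume_Icc,
      ENNReal.toReal_ofReal (by linarith [Real.pi_pos])]
    ring
  simp only [h2, Finset.prod_const, Finset.card_univ, Fintype.card_fin]

theorem integral_exp_int (z : ℤ) :
    ∫ t in Set.Icc (-π) π, Complex.exp (Complex.I * z * t) = if z = 0 then (2 * π : ℂ) else 0 := by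
  rw [integral_Icc_eq_integral_Ioc, ← intervalIntegral.integral_of_le (by linarith [Real.pi_pos])]
  split_ifs with h
  · subst h
    simp
    ring
  · have hc : Complex.I * (z : ℂ) ≠ 0 := mul_ne_zero Complex.I_ne_zero (by exact_mod_cast h)
    rw [integral_exp_mul_complex hc]
    have h1 : Complex.exp (Complex.I * z * (π : ℝ)) = Complex.exp (Complex.I * z * ((-π : ℝ) : ℝ)) := by
      rw [Complex.exp_eq_exp_iff_exists_int]
      exact ⟨z, by push_cast; ring⟩
    rw [h1, sub_self, zero_div]

theorem integral_zone_cexp (z : Fin 3 → ℤ) :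
    ∫ k in zone, Complex.exp (Complex.I * ((∑ i, k i * z i : ℝ) : ℂ)) =
      if z = 0 then ((2 * π : ℂ)) ^ 3 else 0 := by
  have h1 : ∀ k : Fin 3 → ℝ, Complex.exp (Complex.I * ((∑ i, k i * z i : ℝ) : ℂ)) =
      ∏ i, Complex.exp (Complex.I * (z i) * (k i)) := by
    intro k
    rw [← Complex.exp_sum]
    congr 1
    push_cast
    rw [Finset.mul_sum]
    exact Finset.sum_congr rfl fun i _ => by ring
  simp_rw [h1]
  rw [integral_zone_prod (fun i t => Complex.exp (Complex.I * (z i) * t))]
  simp only [integral_exp_int]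
  split_ifs with h
  · subst h
    simp
  · obtain ⟨i, hi⟩ := Function.ne_iff.1 h
    exact Finset.prod_eq_zero (Finset.mem_univ i) (if_neg hi)

theorem integral_zone_cos (z : Fin 3 → ℤ) :
    ∫ k in zone, Real.cos (∑ i, k i * z i) = if z = 0 then (2 * π) ^ 3 else 0 := by
  have h1 : ∀ k : Fin 3 → ℝ, Real.cos (∑ i, k i * z i) =
      (RCLike.re (Complex.exp (Complex.I * ((∑ i, k i * z i : ℝ) : ℂ))) : ℝ) := by
    intro k
    rw [mul_comm]
    exact (Complex.exp_ofReal_mul_I_re _).symm
  simp_rw [h1]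
  have hint : Integrable (fun k : Fin 3 → ℝ =>
      Complex.exp (Complex.I * ((∑ i, k i * z i : ℝ) : ℂ))) (volume.restrict zone) := by
    apply ContinuousOn.integrableOn_compact isCompact_zone
    fun_prop
  rw [integral_re hint, integral_zone_cexp]
  split_ifs with h
  · have : ((2 * π : ℂ)) ^ 3 = (((2 * π) ^ 3 : ℝ) : ℂ) := by push_cast; ring
    rw [this]; exact Complex.ofReal_re _
  · simp

end Vale.Agent.P361
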