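import Vale.Agent.Lib.P361.NearAdd

open Matrix NormedSpace

namespace Vale.Agent.P361

/-- logarithm of the partition function of a finite set of sites -/
noncomputable def logP (n : ℕ) (β h : ℝ) (Λ : Finset (Fin 3 → ℤ)) : ℝ :=
  Real.log (partZ n β h Λ)

theorem logP_eq (n : ℕ) (β h : ℝ) (Λ : Finset (Fin 3 → ℤ)) :
    logP n β h Λ = logZ n β h (bonds Λ) := rfl

theorem mem_bonds {Λ : Finset (Fin 3 → ℤ)} {e : Λ × Λ} : e ∈ bonds Λ ↔
    ∃ j : Fin 3, (e.2 : Fin 3 → ℤ) = (e.1 : Fin 3 → ℤ) + Pi.single j 1 := by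
  simp [bonds]

/-- transport along a bijection that preserves the bonds -/
theorem logZ_equiv {V V' : Type*} [DecidableEq V] [Fintype V] [DecidableEq V'] [Fintype V']
    (n : ℕ) (e : V ≃ V') (E : Finset (V × V)) (E' : Finset (V' × V'))
    (hE : ∀ x y, (x, y) ∈ E ↔ (e x, e y) ∈ E') (β h : ℝ) :
    logZ n β h E' = logZ n β h E := by
  rw [logZ, logZ, trace_bham_equiv n e E E' hE]

theorem logP_translate (n : ℕ) (β h : ℝ) (Λ Λ' : Finset (Fin 3 → ℤ)) (t : Fin 3 → ℤ)
    (hΛ : ∀ x, x ∈ Λ ↔ x + t ∈ Λ') : logP n β h Λ' = logP n β h Λ := by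
  let e : Λ ≃ Λ' :=
    { toFun := fun x => ⟨x + t, (hΛ x).1 x.2⟩
      invFun := fun y => ⟨y - t, (hΛ _).2 (by simp)⟩
      left_inv := fun x => Subtype.ext (by simp)
      right_inv := fun y => Subtype.ext (by simp) }
  rw [logP_eq, logP_eq]
  apply logZ_equiv n e
  intro x y
  rw [mem_bonds, mem_bonds]
  refine exists_congr fun j => ?_
  change (y : Fin 3 → ℤ) = (x : Fin 3 → ℤ) + Pi.single j 1 ↔
    (y : Fin 3 → ℤ) + t = (x : Fin 3 → ℤ) + t + Pi.single j 1
  constructor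
  · intro h; rw [h]; abel
  · intro h
    have h2 : (y : Fin 3 → ℤ) + t = ((x : Fin 3 → ℤ) + Pi.single j 1) + t := by rw [h]; abel
    exact add_right_cancel h2

/-- the bonds cut by the predicate `q` -/
noncomputable def cut (Λ : Finset (Fin 3 → ℤ)) (q : (Fin 3 → ℤ) → Prop) [DecidablePred q] :
    Finset (Λ × Λ) := (bonds Λ).filter fun e => ¬ (q e.1 ↔ q e.2)

theorem logZ_sub {Λ : Finset (Fin 3 → ℤ)} (n : ℕ) (β h : ℝ) (q : (Fin 3 → ℤ) → Prop)
    [DecidablePred q] (E : Finset (Λ × Λ))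
    (hE : ∀ x y : Λ, q x → q y → ((x, y) ∈ E ↔ (x, y) ∈ bonds Λ)) :
    logZ n β h (subBonds E (fun v : Λ => q v)) = logP n β h (Λ.filter q) := by
  let e : (Λ.filter q : Finset (Fin 3 → ℤ)) ≃ {v : Λ // q v} :=
    { toFun := fun x => ⟨⟨x, (Finset.mem_filter.1 x.2).1⟩, (Finset.mem_filter.1 x.2).2⟩
      invFun := fun y => ⟨(y : Λ), Finset.mem_filter.2 ⟨y.1.2, y.2⟩⟩
      left_inv := fun x => rfl
      right_inv := fun y => rfl }
  rw [logP_eq]
  apply logZ_equiv n e
  intro x y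
  rw [mem_bonds]
  simp only [subBonds, Finset.mem_filter, Finset.mem_univ, true_and]
  have := hE (e x : Λ) (e y : Λ) (e x).2 (e y).2
  rw [this, mem_bonds]
  rfl

theorem near_additive (n : ℕ) {β : ℝ} (hβ : 0 ≤ β) (h : ℝ) (Λ : Finset (Fin 3 → ℤ))
    (q : (Fin 3 → ℤ) → Prop) [DecidablePred q] :
    |logP n β h Λ - logP n β h (Λ.filter q) - logP n β h (Λ.filter fun x => ¬ q x)| ≤
      β * ((n : ℝ) / 2 * ((n : ℝ) / 2 + 1)) * (cut Λ q).card := by
  set E0 : Finset (Λ × Λ) := (bonds Λ).filter fun e => (q e.1 ↔ q e.2) with hE0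
  have h1 : bonds Λ \ E0 = cut Λ q := by
    ext e
    simp only [hE0, cut, Finset.mem_sdiff, Finset.mem_filter]
    tauto
  have h2 := logZ_diff n hβ h (E := E0) (E' := bonds Λ) (Finset.filter_subset _ _) (bonds_ne Λ)
  rw [h1] at h2
  have h3 : logZ n β h E0 = logP n β h (Λ.filter q) + logP n β h (Λ.filter fun x => ¬ q x) := by
    have h4 := trace_bham_split (fun v : Λ => q v) n E0
      (fun e he => (Finset.mem_filter.1 he).2) β h
    have h5 : logZ n β h (subBonds E0 (fun v : Λ => q v)) = logP n β h (Λ.filter q) := by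
      apply logZ_sub
      intro x y hx hy
      simp only [hE0, Finset.mem_filter]
      tauto
    have h6 : logZ n β h (subBonds E0 (fun v : Λ => ¬ q v)) =
        logP n β h (Λ.filter fun x => ¬ q x) := by
      apply logZ_sub n β h (fun x => ¬ q x)
      intro x y hx hy
      simp only [hE0, Finset.mem_filter]
      tauto
    rw [← h5, ← h6, logZ, logZ, logZ, h4]
    have hne : ∀ p ∈ E0, p.1 ≠ p.2 := fun p hp => bonds_ne Λ p (Finset.mem_filter.1 hp).1
    have hH : ∀ (r : Λ → Prop) [DecidablePred r],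
        (-bham n (subBonds E0 r) β h).IsHermitian := by
      intro r _
      apply IsHermitian.neg
      apply bham_isHermitian
      intro p hp heq
      simp only [subBonds, Finset.mem_filter, Finset.mem_univ, true_and] at hp
      exact hne _ hp (congrArg Subtype.val heq)
    obtain ⟨r1, hr1⟩ : ∃ r : ℝ, trace (exp (-bham n (subBonds E0 (fun v : Λ => q v)) β h)) = r := by
      obtain ⟨R, hR, hRR⟩ := exp_half_sq (hH (fun v : Λ => q v))
      refine ⟨_, (Complex.conj_eq_iff_re.1 ?_).symm⟩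
      rw [← Complex.star_def, ← trace_conjTranspose, (Matrix.IsHermitian.exp (hH _)).eq]
    obtain ⟨r2, hr2⟩ : ∃ r : ℝ, trace (exp (-bham n (subBonds E0 (fun v : Λ => ¬ q v)) β h)) = r := by
      refine ⟨_, (Complex.conj_eq_iff_re.1 ?_).symm⟩
      rw [← Complex.star_def, ← trace_conjTranspose, (Matrix.IsHermitian.exp (hH _)).eq]
    have p1 := trace_exp_pos (hH (fun v : Λ => q v))
    have p2 := trace_exp_pos (hH (fun v : Λ => ¬ q v))
    rw [hr1, Complex.ofReal_re] at p1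
    rw [hr2, Complex.ofReal_re] at p2
    rw [hr1, hr2, ← Complex.ofReal_mul, Complex.ofReal_re, Complex.ofReal_re, Complex.ofReal_re,
      Real.log_mul p1.ne' p2.ne']
  rw [h3, ← logP_eq, ← sub_sub] at h2
  exact h2

end Vale.Agent.P361
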