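import Vale.Agent.Lib.P361.Spin

open Matrix

namespace Vale.Agent.P361

section Abstract

variable {R : Type*} [Ring R] [Algebra ℂ R] {Zx Px Mx Zy Py My : R}

theorem abs_comm_Px
    (hZPx : Zx * Px = Px * Zx + Px) (hPMx : Px * Mx = Mx * Px + (2 : ℂ) • Zx)
    (c1 : Px * Zy = Zy * Px) (c2 : Px * Py = Py * Px) (c3 : Px * My = My * Px)
    (_c4 : Zx * Zy = Zy * Zx) (_c5 : Zx * Py = Py * Zx) :
    Px * (Zx * Zy + (1 / 2 : ℂ) • (Px * My + Mx * Py)) -
      (Zx * Zy + (1 / 2 : ℂ) • (Px * My + Mx * Py)) * Px = Zx * Py - Px * Zy := by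
  have h1 : Px * (Zx * Zy) - Zx * Zy * Px = -(Px * Zy) := by
    rw [mul_assoc Zx, ← c1, ← mul_assoc, ← mul_assoc, hZPx]
    noncomm_ring
  have h2 : Px * (Px * My) - Px * My * Px = 0 := by
    rw [mul_assoc Px My Px, ← c3, sub_self]
  have h3 : Px * (Mx * Py) - Mx * Py * Px = (2 : ℂ) • (Zx * Py) := by
    rw [mul_assoc Mx, ← c2, ← mul_assoc, ← mul_assoc, hPMx, add_mul, smul_mul_assoc]
    abel
  calc _ = (Px * (Zx * Zy) - Zx * Zy * Px) + (1 / 2 : ℂ) • ((Px * (Px * My) - Px * My * Px) +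
        (Px * (Mx * Py) - Mx * Py * Px)) := by
        rw [mul_add, add_mul, mul_smul_comm, smul_mul_assoc, mul_add Px, add_mul _ _ Px]
        module
    _ = _ := by
        rw [h1, h2, h3, zero_add, smul_smul]
        norm_num
        abel

theorem abs_comm_Py
    (hZPy : Zy * Py = Py * Zy + Py) (hPMy : Py * My = My * Py + (2 : ℂ) • Zy)
    (c1 : Py * Zx = Zx * Py) (c2 : Py * Px = Px * Py) (c3 : Py * Mx = Mx * Py) :
    Py * (Zx * Zy + (1 / 2 : ℂ) • (Px * My + Mx * Py)) -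
      (Zx * Zy + (1 / 2 : ℂ) • (Px * My + Mx * Py)) * Py = -(Zx * Py - Px * Zy) := by
  have h1 : Py * (Zx * Zy) - Zx * Zy * Py = -(Zx * Py) := by
    rw [mul_assoc Zx, hZPy, ← mul_assoc, c1]
    noncomm_ring
  have h2 : Py * (Px * My) - Px * My * Py = (2 : ℂ) • (Px * Zy) := by
    rw [← mul_assoc, c2, mul_assoc, mul_assoc, hPMy, mul_add, mul_smul_comm]
    abel
  have h3 : Py * (Mx * Py) - Mx * Py * Py = 0 := by
    rw [← mul_assoc, c3, sub_self]
  calc _ = (Py * (Zx * Zy) - Zx * Zy * Py) + (1 / 2 : ℂ) • ((Py * (Px * My) - Px * My * Py) +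
        (Py * (Mx * Py) - Mx * Py * Py)) := by
        rw [mul_add, add_mul, mul_smul_comm, smul_mul_assoc, mul_add Py, add_mul _ _ Py]
        module
    _ = _ := by
        rw [h1, h2, h3, add_zero, smul_smul]
        norm_num
        abel

theorem abs_comm_DMx
    (hZMx : Zx * Mx = Mx * Zx - Mx) (hPMx : Px * Mx = Mx * Px + (2 : ℂ) • Zx)
    (c1 : Py * Mx = Mx * Py) (c2 : Zy * Mx = Mx * Zy) :
    (Zx * Py - Px * Zy) * Mx - Mx * (Zx * Py - Px * Zy) =
      -(Mx * Py) - (2 : ℂ) • (Zx * Zy) := by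
  have h1 : Zx * Py * Mx - Mx * (Zx * Py) = -(Mx * Py) := by
    rw [mul_assoc, c1, ← mul_assoc, hZMx]
    noncomm_ring
  have h2 : Px * Zy * Mx - Mx * (Px * Zy) = (2 : ℂ) • (Zx * Zy) := by
    rw [mul_assoc, c2, ← mul_assoc, hPMx, add_mul, smul_mul_assoc, mul_assoc]
    abel
  rw [← h1, ← h2]
  noncomm_ring

theorem abs_comm_DMy
    (hZMy : Zy * My = My * Zy - My) (hPMy : Py * My = My * Py + (2 : ℂ) • Zy)
    (c1 : My * Zx = Zx * My) (c2 : My * Px = Px * My) :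
    (Zx * Py - Px * Zy) * My - My * (Zx * Py - Px * Zy) =
      Px * My + (2 : ℂ) • (Zx * Zy) := by
  have h1 : Zx * Py * My - My * (Zx * Py) = (2 : ℂ) • (Zx * Zy) := by
    rw [mul_assoc, hPMy, ← mul_assoc, c1, mul_add, mul_smul_comm]
    simp only [mul_assoc]
    abel
  have h2 : Px * Zy * My - My * (Px * Zy) = -(Px * My) := by
    rw [mul_assoc, hZMy, ← mul_assoc, c2]
    noncomm_ring
  rw [sub_mul, mul_sub, sub_sub_sub_comm, h1, h2]
  abel

end Abstract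

end Vale.Agent.P361
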