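import Mathlib

open Matrix Filter Topology

namespace Vale.Agent.P361

/-! ### Single-site spin matrices, spin `S = n / 2`

The basis vector with index `j = 0, …, n` has `S³`-eigenvalue `n / 2 - j`. -/

/-- The third spin matrix. -/
noncomputable def spinZ (n : ℕ) : Matrix (Fin (n + 1)) (Fin (n + 1)) ℂ :=
  Matrix.diagonal fun j => (n : ℂ) / 2 - ((j : ℕ) : ℂ)

/-- The raising matrix `S⁺ = S¹ + i S²`. -/
noncomputable def spinPlus (n : ℕ) : Matrix (Fin (n + 1)) (Fin (n + 1)) ℂ :=
  Matrix.of fun i j =>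
    if (i : ℕ) + 1 = (j : ℕ) then ((Real.sqrt ((j : ℕ) * ((n : ℝ) + 1 - (j : ℕ))) : ℝ) : ℂ) else 0

/-- The three spin matrices `S¹, S², S³` of spin `n / 2`. -/
noncomputable def spin (n : ℕ) : Fin 3 → Matrix (Fin (n + 1)) (Fin (n + 1)) ℂ :=
  ![(1 / 2 : ℂ) • (spinPlus n + Matrix.conjTranspose (spinPlus n)),
    (-Complex.I / 2) • (spinPlus n - Matrix.conjTranspose (spinPlus n)),
    spinZ n]

/-! ### Many-body operators -/

/-- The operator acting as the matrix `A` at the site `x` and as the identity elsewhere, on the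
space spanned by the configurations `V → d`. -/
def siteOp {V d : Type*} [DecidableEq V] [Fintype V] [DecidableEq d] (x : V)
    (A : Matrix d d ℂ) : Matrix (V → d) (V → d) ℂ :=
  Matrix.of fun σ τ => if ∀ y, y ≠ x → σ y = τ y then A (σ x) (τ x) else 0

/-- The box `{-N, …, N}³`. -/
noncomputable def box (N : ℕ) : Finset (Fin 3 → ℤ) := Finset.Icc (fun _ => -(N : ℤ)) (fun _ => (N : ℤ))

/-- The nearest-neighbour bonds inside `Λ`; each is counted once, as the pair `(x, x + e_j)`. -/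
noncomputable def bonds (Λ : Finset (Fin 3 → ℤ)) : Finset (Λ × Λ) :=
  Finset.univ.filter fun p => ∃ j : Fin 3, (p.2 : Fin 3 → ℤ) = (p.1 : Fin 3 → ℤ) + Pi.single j 1

/-- The Heisenberg Hamiltonian `H = - ∑_{bonds} S_x · S_y` with free boundary conditions. -/
noncomputable def hamiltonian (n : ℕ) (Λ : Finset (Fin 3 → ℤ)) :
    Matrix (Λ → Fin (n + 1)) (Λ → Fin (n + 1)) ℂ :=
  -∑ p ∈ bonds Λ, ∑ a : Fin 3, siteOp p.1 (spin n a) * siteOp p.2 (spin n a)

/-- The total third component `M = ∑_x S³_x`. -/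
noncomputable def totalSpinZ (n : ℕ) (Λ : Finset (Fin 3 → ℤ)) :
    Matrix (Λ → Fin (n + 1)) (Λ → Fin (n + 1)) ℂ :=
  ∑ x : Λ, siteOp x (spin n 2)

/-- The finite-volume pressure `(β |Λ|)⁻¹ log Tr exp (-β (H - h M))`. -/
noncomputable def finitePressure (n : ℕ) (β h : ℝ) (Λ : Finset (Fin 3 → ℤ)) : ℝ :=
  (1 / (β * Λ.card)) *
    Real.log (Matrix.trace (NormedSpace.exp
      ((-β : ℂ) • (hamiltonian n Λ - (h : ℂ) • totalSpinZ n Λ)))).re

/-- The pressure `p_β(h)`, the limit of the finite-volume pressures along the boxes. -/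
noncomputable def pressure (n : ℕ) (β h : ℝ) : ℝ :=
  limUnder atTop fun N : ℕ => finitePressure n β h (box N)

/-- The spontaneous magnetization `m_S(β)`: the right derivative of `h ↦ p_β(h)` at `0`. -/
noncomputable def spontaneousMagnetization (n : ℕ) (β : ℝ) : ℝ :=
  derivWithin (fun h => pressure n β h) (Set.Ioi 0) 0

end Vale.Agent.P361
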