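import Vale.Agent.Lib.P361.Gibbs2

open Matrix NormedSpace
open scoped ComplexConjugate ComplexOrder

namespace Vale.Agent.P361

variable {ι : Type*} [Fintype ι] [DecidableEq ι]

theorem trace_exp_pos [Nonempty ι] {A : Matrix ι ι ℂ} (hA : A.IsHermitian) :
    0 < (trace (exp A)).re := by
  obtain ⟨U, k, hU1, hU2, hKd, hexp⟩ := exists_diag hA
  have hexpA : exp A = U * diagonal (fun i => ((Real.exp (k i) : ℝ) : ℂ)) * Uᴴ := by
    simpa using hexp 1
  rw [hexpA, trace_mul_comm, ← mul_assoc, hU1, one_mul, trace_diagonal, ← Complex.ofReal_sum,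
    Complex.ofReal_re]
  exact Finset.sum_pos (fun i _ => Real.exp_pos _) Finset.univ_nonempty

theorem exp_half_sq {A : Matrix ι ι ℂ} (hA : A.IsHermitian) :
    ∃ R : Matrix ι ι ℂ, R.IsHermitian ∧ exp A = R * R := by
  refine ⟨exp ((1 / 2 : ℂ) • A), ?_, ?_⟩
  · apply Matrix.IsHermitian.exp
    rw [IsHermitian, conjTranspose_smul, hA.eq]
    simp
  · rw [← Matrix.exp_add_of_commute _ _ (Commute.refl _), ← add_smul]
    norm_num

theorem trace_mul_exp_nonneg {A X : Matrix ι ι ℂ} (hA : A.IsHermitian) (hX : X.PosSemidef) :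
    0 ≤ (trace (exp A * X)).re := by
  obtain ⟨R, hR, hRR⟩ := exp_half_sq hA
  rw [hRR, mul_assoc, trace_mul_comm]
  have h : (R * X * R).PosSemidef := by
    have := hX.mul_mul_conjTranspose_same R
    rwa [hR.eq] at this
  have h2 := h.trace_nonneg
  exact (Complex.le_def.1 h2).1

/-- if `X ≤ w` then `tr (e^A X) ≤ w tr e^A`. -/
theorem trace_exp_mul_le {A X : Matrix ι ι ℂ} (hA : A.IsHermitian) {w : ℝ}
    (hX : ((w : ℂ) • (1 : Matrix ι ι ℂ) - X).PosSemidef) :
    (trace (exp A * X)).re ≤ w * (trace (exp A)).re := by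
  have := trace_mul_exp_nonneg hA hX
  rw [mul_sub, trace_sub, mul_smul_comm, mul_one, trace_smul, Complex.sub_re, smul_eq_mul,
    Complex.re_ofReal_mul] at this
  linarith

theorem exp_add_const (B : Matrix ι ι ℂ) (c : ℝ) :
    exp (B + (c : ℂ) • (1 : Matrix ι ι ℂ)) = ((Real.exp c : ℝ) : ℂ) • exp B := by
  have hc : Commute B ((c : ℂ) • (1 : Matrix ι ι ℂ)) := by
    rw [Commute, SemiconjBy, mul_smul_comm, smul_mul_assoc, mul_one, one_mul]
  rw [Matrix.exp_add_of_commute _ _ hc]
  have h1 : (c : ℂ) • (1 : Matrix ι ι ℂ) = diagonal (fun _ => (c : ℂ)) := by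
    ext i j
    by_cases h : i = j
    · subst h; simp
    · simp [h]
  have h2 : exp ((c : ℂ) • (1 : Matrix ι ι ℂ)) = ((Real.exp c : ℝ) : ℂ) • (1 : Matrix ι ι ℂ) := by
    rw [h1, exp_diagonal]
    ext i j
    by_cases h : i = j
    · subst h; simp [Complex.ofReal_exp, Complex.exp_eq_exp_ℂ]
    · simp [h]
  rw [h2, mul_smul_comm, mul_one]

/-- Peierls–Bogoliubov inequality. -/
theorem peierls_bogoliubov [Nonempty ι] {A B : Matrix ι ι ℂ} (hA : A.IsHermitian)
    (hB : B.IsHermitian) :
    Real.log (trace (exp A)).re + (trace (exp A * (B - A))).re / (trace (exp A)).re ≤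
      Real.log (trace (exp B)).re := by
  set Z := (trace (exp A)).re with hZ
  have hZpos : 0 < Z := trace_exp_pos hA
  set t := (trace (exp A * (B - A))).re / Z with ht
  have hB' : (B + ((-t : ℝ) : ℂ) • (1 : Matrix ι ι ℂ)).IsHermitian := by
    rw [IsHermitian, conjTranspose_add, hB.eq, conjTranspose_smul, conjTranspose_one]
    simp
  have h := klein hA hB'
  rw [exp_add_const, trace_smul, smul_eq_mul, Complex.re_ofReal_mul] at h
  have h1 : (trace ((B + ((-t : ℝ) : ℂ) • (1 : Matrix ι ι ℂ) - A) * exp A)).re = 0 := by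
    have : (B + ((-t : ℝ) : ℂ) • (1 : Matrix ι ι ℂ) - A) * exp A =
        (B - A) * exp A + ((-t : ℝ) : ℂ) • exp A := by
      rw [add_sub_right_comm, add_mul, smul_mul_assoc, one_mul]
    rw [this, trace_add, trace_smul, smul_eq_mul, Complex.add_re, Complex.re_ofReal_mul,
      trace_mul_comm, ht]
    field_simp
    ring
  rw [h1, add_zero] at h
  have h2 : Real.exp t * Z ≤ (trace (exp B)).re := by
    have h3 : Real.exp t * Real.exp (-t) = 1 := by rw [← Real.exp_add]; simp
    calc Real.exp t * Z ≤ Real.exp t * (Real.exp (-t) * (trace (exp B)).re) :=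
          mul_le_mul_of_nonneg_left h (Real.exp_pos _).le
      _ = _ := by rw [← mul_assoc, h3, one_mul]
  calc Real.log Z + t = Real.log (Real.exp t * Z) := by
        rw [Real.log_mul (Real.exp_pos _).ne' hZpos.ne', Real.log_exp]; ring
    _ ≤ _ := Real.log_le_log (by positivity) h2

theorem log_trace_exp_le [Nonempty ι] {A B : Matrix ι ι ℂ} (hA : A.IsHermitian)
    (hB : B.IsHermitian) {w : ℝ}
    (hw : ((w : ℂ) • (1 : Matrix ι ι ℂ) - (B - A)).PosSemidef) :
    Real.log (trace (exp B)).re ≤ Real.log (trace (exp A)).re + w := by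
  have h1 := peierls_bogoliubov hB hA
  have h2 := trace_exp_mul_le hB hw
  have hZ := trace_exp_pos hB
  have h3 : -w ≤ (trace (exp B * (A - B))).re / (trace (exp B)).re := by
    rw [le_div_iff₀ hZ]
    have : exp B * (A - B) = -(exp B * (B - A)) := by rw [← mul_neg, neg_sub]
    rw [this, trace_neg, Complex.neg_re]
    linarith
  linarith

end Vale.Agent.P361
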