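import Vale.Agent.Lib.P361.Many
import Vale.Agent.Lib.P361.Gibbs3

open Matrix NormedSpace
open scoped ComplexOrder

namespace Vale.Agent.P361

variable {V : Type*} [DecidableEq V] [Fintype V]

/-- Hamiltonian on a finite bond set -/
noncomputable def ham (n : ℕ) (E : Finset (V × V)) : Matrix (V → Fin (n + 1)) (V → Fin (n + 1)) ℂ :=
  -∑ p ∈ E, dot n p.1 p.2

noncomputable def Mtot (n : ℕ) (V : Type*) [DecidableEq V] [Fintype V] :
    Matrix (V → Fin (n + 1)) (V → Fin (n + 1)) ℂ := ∑ x : V, Zop n x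

/-- spin wave operator -/
noncomputable def wave (n : ℕ) (f : V → ℝ) : Matrix (V → Fin (n + 1)) (V → Fin (n + 1)) ℂ :=
  ∑ v, (f v : ℂ) • Pop n v

theorem wave_conjTranspose (n : ℕ) (f : V → ℝ) :
    (wave n f)ᴴ = ∑ v, (f v : ℂ) • Mop n v := by
  rw [wave, conjTranspose_sum]
  refine Finset.sum_congr rfl fun v _ => ?_
  rw [conjTranspose_smul, Pop_conjTranspose]
  congr 1
  simp

theorem comm_wave_dot (n : ℕ) (f : V → ℝ) {x y : V} (h : x ≠ y) :
    wave n f * dot n x y - dot n x y * wave n f = ((f x - f y : ℝ) : ℂ) • cur n x y := by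
  rw [wave, Finset.sum_mul, Finset.mul_sum, ← Finset.sum_sub_distrib]
  have h1 : ∀ v, (f v : ℂ) • Pop n v * dot n x y - dot n x y * ((f v : ℂ) • Pop n v) =
      ((if v = x then (f v : ℂ) else 0) + (if v = y then -(f v : ℂ) else 0)) • cur n x y := by
    intro v
    rw [smul_mul_assoc, mul_smul_comm, ← smul_sub, comm_P_dot n h, smul_smul]
    congr 1
    by_cases h1 : v = x
    · subst h1; simp [h]
    · by_cases h2 : v = y
      · subst h2; simp [h1]
      · simp [h1, h2]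
  simp_rw [h1]
  rw [← Finset.sum_smul, Finset.sum_add_distrib]
  simp only [Finset.sum_ite_eq', Finset.mem_univ, if_true]
  congr 1
  push_cast; ring

theorem comm_wave_ham (n : ℕ) (f : V → ℝ) (E : Finset (V × V)) (hE : ∀ p ∈ E, p.1 ≠ p.2) :
    wave n f * ham n E - ham n E * wave n f =
      -∑ p ∈ E, ((f p.1 - f p.2 : ℝ) : ℂ) • cur n p.1 p.2 := by
  rw [ham, mul_neg, neg_mul, ← neg_sub, neg_sub_neg, Finset.mul_sum, Finset.sum_mul,
    ← neg_sub, ← Finset.sum_sub_distrib, neg_neg]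
  rw [← Finset.sum_neg_distrib]
  refine Finset.sum_congr rfl fun p hp => ?_
  rw [← comm_wave_dot n f (hE p hp)]
  abel

theorem comm_wave_Mtot (n : ℕ) (f : V → ℝ) :
    wave n f * Mtot n V - Mtot n V * wave n f = -wave n f := by
  rw [wave, Mtot, Finset.sum_mul, Finset.mul_sum, ← Finset.sum_sub_distrib,
    ← Finset.sum_neg_distrib]
  refine Finset.sum_congr rfl fun v _ => ?_
  rw [smul_mul_assoc, mul_smul_comm, ← smul_sub, Finset.mul_sum, Finset.sum_mul,
    ← Finset.sum_sub_distrib, ← smul_neg]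
  congr 1
  rw [Finset.sum_eq_single v]
  · rw [ZP]; abel
  · intro w _ hw
    rw [PZc n hw.symm, sub_self]
  · intro h; exact absurd (Finset.mem_univ _) h

theorem comm_cur_wave (n : ℕ) (f : V → ℝ) {x y : V} (h : x ≠ y) :
    cur n x y * (wave n f)ᴴ - (wave n f)ᴴ * cur n x y =
      (f x : ℂ) • (-(Mop n x * Pop n y) - (2 : ℂ) • (Zop n x * Zop n y)) +
      (f y : ℂ) • (Pop n x * Mop n y + (2 : ℂ) • (Zop n x * Zop n y)) := by
  rw [wave_conjTranspose, Finset.sum_mul, Finset.mul_sum, ← Finset.sum_sub_distrib]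
  have h1 : ∀ v, cur n x y * ((f v : ℂ) • Mop n v) - (f v : ℂ) • Mop n v * cur n x y =
      (if v = x then (f v : ℂ) • (-(Mop n x * Pop n y) - (2 : ℂ) • (Zop n x * Zop n y)) else 0) +
      (if v = y then (f v : ℂ) • (Pop n x * Mop n y + (2 : ℂ) • (Zop n x * Zop n y)) else 0) := by
    intro v
    rw [smul_mul_assoc, mul_smul_comm, ← smul_sub, comm_cur_M n h]
    by_cases h1 : v = x
    · subst h1; simp [h]
    · by_cases h2 : v = y
      · subst h2; simp [h1]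
      · simp [h1, h2]
  simp_rw [h1]
  rw [Finset.sum_add_distrib]
  simp only [Finset.sum_ite_eq', Finset.mem_univ, if_true]

theorem comm_wave_wave (n : ℕ) (f : V → ℝ) :
    wave n f * (wave n f)ᴴ - (wave n f)ᴴ * wave n f =
      ∑ v, ((f v ^ 2 : ℝ) : ℂ) • ((2 : ℂ) • Zop n v) := by
  rw [wave_conjTranspose, wave, Finset.sum_mul, Finset.mul_sum, ← Finset.sum_sub_distrib]
  refine Finset.sum_congr rfl fun v _ => ?_
  rw [Finset.mul_sum, Finset.sum_mul, ← Finset.sum_sub_distrib, Finset.sum_eq_single v]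
  · rw [smul_mul_smul_comm, smul_mul_smul_comm, ← smul_sub, PM, add_sub_cancel_left]
    congr 1
    push_cast; ring
  · intro w _ hw
    rw [smul_mul_smul_comm, smul_mul_smul_comm, PMc n hw.symm, mul_comm, sub_self]
  · intro h; exact absurd (Finset.mem_univ _) h

/-- the (unnormalized) Gibbs expectation, real part -/
noncomputable def ev {ι : Type*} [Fintype ι] (ρ X : Matrix ι ι ℂ) : ℝ := (trace (ρ * X)).re

theorem ev_add {ι : Type*} [Fintype ι] (ρ X Y : Matrix ι ι ℂ) : ev ρ (X + Y) = ev ρ X + ev ρ Y := by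
  rw [ev, mul_add, trace_add, Complex.add_re, ev, ev]
theorem ev_sub {ι : Type*} [Fintype ι] (ρ X Y : Matrix ι ι ℂ) : ev ρ (X - Y) = ev ρ X - ev ρ Y := by
  rw [ev, mul_sub, trace_sub, Complex.sub_re, ev, ev]
theorem ev_neg {ι : Type*} [Fintype ι] (ρ X : Matrix ι ι ℂ) : ev ρ (-X) = -ev ρ X := by
  rw [ev, mul_neg, trace_neg, Complex.neg_re, ev]
theorem ev_smul {ι : Type*} [Fintype ι] (ρ X : Matrix ι ι ℂ) (c : ℝ) :
    ev ρ ((c : ℂ) • X) = c * ev ρ X := by
  rw [ev, mul_smul_comm, trace_smul, smul_eq_mul, Complex.re_ofReal_mul, ev]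
theorem ev_sum {ι κ : Type*} [Fintype ι] (ρ : Matrix ι ι ℂ) (s : Finset κ)
    (X : κ → Matrix ι ι ℂ) : ev ρ (∑ i ∈ s, X i) = ∑ i ∈ s, ev ρ (X i) := by
  rw [ev, Finset.mul_sum, trace_sum, Complex.re_sum]; rfl
theorem ev_conjTranspose {ι : Type*} [Fintype ι] {ρ : Matrix ι ι ℂ} (hρ : ρ.IsHermitian)
    (X : Matrix ι ι ℂ) : ev ρ Xᴴ = ev ρ X := by
  rw [ev, ev]
  have : trace (ρ * Xᴴ) = star (trace (ρ * X)) := by
    rw [← trace_conjTranspose, conjTranspose_mul, hρ.eq, trace_mul_comm]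
  rw [this]
  simp

theorem ham_isHermitian (n : ℕ) (E : Finset (V × V)) (hE : ∀ p ∈ E, p.1 ≠ p.2) :
    (ham n E).IsHermitian := by
  rw [IsHermitian, ham, conjTranspose_neg, conjTranspose_sum]
  congr 1
  exact Finset.sum_congr rfl fun p hp => dot_isHermitian n (hE p hp)

theorem Mtot_isHermitian (n : ℕ) : (Mtot n V).IsHermitian := by
  rw [IsHermitian, Mtot, conjTranspose_sum]
  exact Finset.sum_congr rfl fun x _ => Zop_conjTranspose n x

/-- `β (H - h M)` -/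
noncomputable def bham (n : ℕ) (E : Finset (V × V)) (β h : ℝ) :
    Matrix (V → Fin (n + 1)) (V → Fin (n + 1)) ℂ :=
  (β : ℂ) • (ham n E - (h : ℂ) • Mtot n V)

theorem bham_isHermitian (n : ℕ) (E : Finset (V × V)) (hE : ∀ p ∈ E, p.1 ≠ p.2) (β h : ℝ) :
    (bham n E β h).IsHermitian := by
  have h1 := ham_isHermitian n E hE
  have h2 := Mtot_isHermitian (V := V) n
  rw [IsHermitian, bham, conjTranspose_smul, conjTranspose_sub, conjTranspose_smul, h1.eq, h2.eq]
  simp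

theorem ev_double_comm (n : ℕ) (E : Finset (V × V)) (hE : ∀ p ∈ E, p.1 ≠ p.2) (β h : ℝ)
    {ρ : Matrix (V → Fin (n + 1)) (V → Fin (n + 1)) ℂ} (hρ : ρ.IsHermitian) (f : V → ℝ) :
    ev ρ ((wave n f * bham n E β h - bham n E β h * wave n f) * (wave n f)ᴴ -
      (wave n f)ᴴ * (wave n f * bham n E β h - bham n E β h * wave n f)) =
    β * (∑ p ∈ E, (f p.1 - f p.2) ^ 2 * (ev ρ (dot n p.1 p.2) + ev ρ (Zop n p.1 * Zop n p.2)) +
      h * ev ρ (wave n f * (wave n f)ᴴ - (wave n f)ᴴ * wave n f)) := by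
  have h1 : wave n f * bham n E β h - bham n E β h * wave n f =
      (β : ℂ) • (-∑ p ∈ E, ((f p.1 - f p.2 : ℝ) : ℂ) • cur n p.1 p.2 + (h : ℂ) • wave n f) := by
    rw [bham, mul_smul_comm, smul_mul_assoc, ← smul_sub, mul_sub, sub_mul, mul_smul_comm,
      smul_mul_assoc]
    congr 1
    rw [← comm_wave_ham n f E hE]
    have h2 := comm_wave_Mtot (V := V) n f
    have h3 : (h : ℂ) • wave n f =
        (h : ℂ) • (Mtot n V * wave n f) - (h : ℂ) • (wave n f * Mtot n V) := by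
      rw [← smul_sub, ← neg_sub, h2, neg_neg]
    rw [h3]
    abel
  rw [h1]
  have h2 : (β : ℂ) • (-∑ p ∈ E, ((f p.1 - f p.2 : ℝ) : ℂ) • cur n p.1 p.2 +
        (h : ℂ) • wave n f) * (wave n f)ᴴ -
      (wave n f)ᴴ * ((β : ℂ) • (-∑ p ∈ E, ((f p.1 - f p.2 : ℝ) : ℂ) • cur n p.1 p.2 +
        (h : ℂ) • wave n f)) =
      (β : ℂ) • (-∑ p ∈ E, ((f p.1 - f p.2 : ℝ) : ℂ) • (cur n p.1 p.2 * (wave n f)ᴴ -
        (wave n f)ᴴ * cur n p.1 p.2) + (h : ℂ) • (wave n f * (wave n f)ᴴ -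
        (wave n f)ᴴ * wave n f)) := by
    rw [smul_mul_assoc, mul_smul_comm, ← smul_sub]
    congr 1
    rw [add_mul, mul_add, neg_mul, mul_neg, Finset.sum_mul, Finset.mul_sum, smul_mul_assoc,
      mul_smul_comm]
    simp only [smul_sub, Finset.sum_sub_distrib, smul_mul_assoc, mul_smul_comm]
    abel
  rw [h2, ev_smul, ev_add, ev_neg, ev_sum, ev_smul]
  congr 2
  rw [← Finset.sum_neg_distrib]
  refine Finset.sum_congr rfl fun p hp => ?_
  rw [ev_smul, comm_cur_wave n f (hE p hp), ev_add, ev_smul, ev_smul, ev_sub, ev_neg, ev_add]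
  have e2 : ev ρ ((2 : ℂ) • (Zop n p.1 * Zop n p.2)) = 2 * ev ρ (Zop n p.1 * Zop n p.2) := by
    have := ev_smul ρ (Zop n p.1 * Zop n p.2) 2
    simpa using this
  have e3 : ev ρ (Mop n p.1 * Pop n p.2) = ev ρ (Pop n p.1 * Mop n p.2) := by
    rw [← ev_conjTranspose hρ, conjTranspose_mul, Mop_conjTranspose, Pop_conjTranspose,
      PMc n (hE p hp)]
  have e4 : ev ρ (dot n p.1 p.2) = ev ρ (Zop n p.1 * Zop n p.2) + ev ρ (Pop n p.1 * Mop n p.2) := by
    rw [dot_def, ev_add]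
    have := ev_smul ρ (Pop n p.1 * Mop n p.2 + Mop n p.1 * Pop n p.2) (1 / 2)
    rw [ev_add, e3] at this
    have h5 : (((1 / 2 : ℝ) : ℝ) : ℂ) = (1 / 2 : ℂ) := by push_cast; rfl
    rw [h5] at this
    rw [this]; ring
  rw [e2, e3, e4]
  ring

end Vale.Agent.P361
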