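import Vale.Agent.Lib.P361.FV

open Matrix NormedSpace
open scoped ComplexOrder

namespace Vale.Agent.P361

variable {V : Type*} [DecidableEq V] [Fintype V]

/-- the two point function sum -/
noncomputable def corr (n : ℕ) (ρ : Matrix (V → Fin (n + 1)) (V → Fin (n + 1)) ℂ) (θ : V → ℝ) : ℝ :=
  ∑ v, ∑ w, Real.cos (θ v - θ w) * ev ρ (Mop n v * Pop n w)

theorem ev_wave_sq (n : ℕ) (ρ : Matrix (V → Fin (n + 1)) (V → Fin (n + 1)) ℂ) (f : V → ℝ) :
    ev ρ ((wave n f)ᴴ * wave n f) = ∑ v, ∑ w, f v * f w * ev ρ (Mop n v * Pop n w) := by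
  rw [wave_conjTranspose, wave, Finset.sum_mul, ev_sum]
  refine Finset.sum_congr rfl fun v _ => ?_
  rw [Finset.mul_sum, ev_sum]
  refine Finset.sum_congr rfl fun w _ => ?_
  rw [smul_mul_smul_comm, ← Complex.ofReal_mul, ev_smul]

theorem phase_ineq (n : ℕ) (E : Finset (V × V)) (hE : ∀ p ∈ E, p.1 ≠ p.2) (β h : ℝ) (hβ : 0 < β)
    (θ : V → ℝ) {ρ : Matrix (V → Fin (n + 1)) (V → Fin (n + 1)) ℂ}
    (hρ : ρ = exp (-bham n E β h)) (hpos : 0 < 2 * ev ρ (Mtot n V)) :
    2 * ev ρ (Mtot n V) ≤ corr n ρ θ * (Real.exp ((β * (2 * ((n : ℝ) / 2) ^ 2 * (trace ρ).re *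
      (∑ p ∈ E, (2 - 2 * Real.cos (θ p.1 - θ p.2))) + h * (2 * ev ρ (Mtot n V)))) /
        (2 * ev ρ (Mtot n V))) - 1) := by
  have hK := bham_isHermitian n E hE β h
  have hKn : (-bham n E β h).IsHermitian := hK.neg
  have hρH : ρ.IsHermitian := by rw [hρ]; exact Matrix.IsHermitian.exp hKn
  set f : Bool → V → ℝ := fun b v => if b then Real.cos (θ v) else Real.sin (θ v) with hf
  have hc : corr n ρ θ = ∑ α ∈ (Finset.univ : Finset Bool),
      (trace (exp (-bham n E β h) * ((wave n (f α))ᴴ * wave n (f α)))).re := by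
    rw [← hρ]
    change corr n ρ θ = ∑ α ∈ (Finset.univ : Finset Bool), ev ρ ((wave n (f α))ᴴ * wave n (f α))
    simp only [ev_wave_sq]
    rw [Fintype.sum_bool, ← Finset.sum_add_distrib, corr]
    refine Finset.sum_congr rfl fun v _ => ?_
    rw [← Finset.sum_add_distrib]
    refine Finset.sum_congr rfl fun w _ => ?_
    simp only [hf, if_true, Bool.false_eq_true, if_false]
    rw [Real.cos_sub]; ring
  have ha : 2 * ev ρ (Mtot n V) = ∑ α ∈ (Finset.univ : Finset Bool),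
      (trace (exp (-bham n E β h) * (wave n (f α) * (wave n (f α))ᴴ -
        (wave n (f α))ᴴ * wave n (f α)))).re := by
    rw [← hρ]
    change _ = ∑ α ∈ (Finset.univ : Finset Bool), ev ρ (wave n (f α) * (wave n (f α))ᴴ -
        (wave n (f α))ᴴ * wave n (f α))
    simp only [comm_wave_wave, ev_sum, ev_smul]
    rw [Fintype.sum_bool, ← Finset.sum_add_distrib, Mtot, ev_sum, Finset.mul_sum]
    refine Finset.sum_congr rfl fun v _ => ?_
    have e2 : ev ρ ((2 : ℂ) • Zop n v) = 2 * ev ρ (Zop n v) := by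
      have := ev_smul ρ (Zop n v) 2
      simpa using this
    rw [e2]
    simp only [hf, if_true, Bool.false_eq_true, if_false]
    rw [← add_mul, Real.cos_sq_add_sin_sq, one_mul]
  have hc0 : 0 ≤ corr n ρ θ := by
    rw [hc]
    exact Finset.sum_nonneg fun α _ =>
      trace_mul_exp_nonneg hKn (posSemidef_conjTranspose_mul_self _)
  set b := ∑ α ∈ (Finset.univ : Finset Bool),
      (trace (exp (-bham n E β h) * ((wave n (f α) * bham n E β h - bham n E β h * wave n (f α)) *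
        (wave n (f α))ᴴ - (wave n (f α))ᴴ *
        (wave n (f α) * bham n E β h - bham n E β h * wave n (f α))))).re with hb
  have key := roepstorff (Finset.univ : Finset Bool) hK (fun α => wave n (f α))
    (2 * ev ρ (Mtot n V)) b (corr n ρ θ) hc ha hb hpos
  have hbB : b ≤ β * (2 * ((n : ℝ) / 2) ^ 2 * (trace ρ).re *
      (∑ p ∈ E, (2 - 2 * Real.cos (θ p.1 - θ p.2))) + h * (2 * ev ρ (Mtot n V))) := by
    have h1 : b = ∑ α ∈ (Finset.univ : Finset Bool), β * (∑ p ∈ E, (f α p.1 - f α p.2) ^ 2 *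
        (ev ρ (dot n p.1 p.2) + ev ρ (Zop n p.1 * Zop n p.2)) +
        h * ev ρ (wave n (f α) * (wave n (f α))ᴴ - (wave n (f α))ᴴ * wave n (f α))) := by
      rw [hb, ← hρ]
      exact Finset.sum_congr rfl fun α _ => ev_double_comm n E hE β h hρH (f α)
    rw [h1, ← Finset.mul_sum]
    apply mul_le_mul_of_nonneg_left _ hβ.le
    rw [Finset.sum_add_distrib, ← Finset.mul_sum]
    have h2 : 2 * ev ρ (Mtot n V) = ∑ α ∈ (Finset.univ : Finset Bool),
        ev ρ (wave n (f α) * (wave n (f α))ᴴ - (wave n (f α))ᴴ * wave n (f α)) := by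
      rw [ha, ← hρ]; rfl
    rw [← h2]
    apply add_le_add_left
    rw [Finset.sum_comm, Finset.mul_sum]
    refine Finset.sum_le_sum fun p hp => ?_
    rw [← Finset.sum_mul]
    have h3 : ∑ α : Bool, (f α p.1 - f α p.2) ^ 2 = 2 - 2 * Real.cos (θ p.1 - θ p.2) := by
      rw [Fintype.sum_bool]
      simp only [hf, if_true, Bool.false_eq_true, if_false]
      rw [Real.cos_sub]
      have e1 := Real.cos_sq_add_sin_sq (θ p.1)
      have e2 := Real.cos_sq_add_sin_sq (θ p.2)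
      linear_combination e1 + e2
    rw [h3]
    have h4 : 0 ≤ 2 - 2 * Real.cos (θ p.1 - θ p.2) := by
      have := Real.cos_le_one (θ p.1 - θ p.2); linarith
    have h5 : ev ρ (dot n p.1 p.2) ≤ ((n : ℝ) / 2) ^ 2 * (trace ρ).re := by
      rw [hρ, ev]; exact trace_exp_mul_le hKn (dot_le n (hE p hp))
    have h6 : ev ρ (Zop n p.1 * Zop n p.2) ≤ ((n : ℝ) / 2) ^ 2 * (trace ρ).re := by
      rw [hρ, ev]; exact trace_exp_mul_le hKn (ZZ_le n p.1 p.2)
    nlinarith [mul_le_mul_of_nonneg_left (add_le_add h5 h6) h4]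
  refine key.trans ?_
  apply mul_le_mul_of_nonneg_left _ hc0
  apply sub_le_sub_right
  apply Real.exp_le_exp.2
  exact div_le_div_of_nonneg_right hbB hpos.le

/-- `∑_v ev (S⁻_v S⁺_v) ≤ n (S |V| Z - ev M)` -/
theorem diag_corr_le (n : ℕ) {K : Matrix (V → Fin (n + 1)) (V → Fin (n + 1)) ℂ}
    (hK : K.IsHermitian) :
    ∑ v, ev (exp K) (Mop n v * Pop n v) ≤
      (n : ℝ) * ((n : ℝ) / 2 * Fintype.card V * (trace (exp K)).re - ev (exp K) (Mtot n V)) := by
  have h1 : ∀ v : V, ev (exp K) (Mop n v * Pop n v) ≤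
      (n : ℝ) * ((n : ℝ) / 2 * (trace (exp K)).re - ev (exp K) (Zop n v)) := by
    intro v
    have h2 := trace_mul_exp_nonneg hK (MP_le n v)
    change 0 ≤ ev (exp K) _ at h2
    rw [ev_sub, ev_smul, ev_sub, ev_smul] at h2
    have h3 : ev (exp K) (1 : Matrix (V → Fin (n + 1)) (V → Fin (n + 1)) ℂ) =
      (trace (exp K)).re := by rw [ev, mul_one]
    rw [h3] at h2
    linarith
  calc ∑ v, ev (exp K) (Mop n v * Pop n v)
      ≤ ∑ v : V, (n : ℝ) * ((n : ℝ) / 2 * (trace (exp K)).re - ev (exp K) (Zop n v)) :=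
        Finset.sum_le_sum fun v _ => h1 v
    _ = _ := by
        rw [← Finset.mul_sum, Finset.sum_sub_distrib, Mtot, ev_sum, Finset.sum_const,
          Finset.card_univ, nsmul_eq_mul]
        ring

end Vale.Agent.P361
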