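import Vale.Agent.Lib.P361.BZ

open MeasureTheory Real Matrix

namespace Vale.Agent.P361

theorem disp_nonneg (n : ℕ) (k : Fin 3 → ℝ) : 0 ≤ disp n k :=
  mul_nonneg (Nat.cast_nonneg n) (Finset.sum_nonneg fun j _ => by
    have := Real.cos_le_one (k j); linarith)

/-- the phase `k · x` -/
noncomputable def phase (Λ : Finset (Fin 3 → ℤ)) (k : Fin 3 → ℝ) (v : Λ) : ℝ :=
  ∑ i, k i * ((v : Fin 3 → ℤ) i : ℝ)

theorem bonds_ne (Λ : Finset (Fin 3 → ℤ)) : ∀ p ∈ bonds Λ, p.1 ≠ p.2 := by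
  intro p hp h
  simp only [bonds, Finset.mem_filter, Finset.mem_univ, true_and] at hp
  obtain ⟨j, hj⟩ := hp
  rw [h] at hj
  have := congrFun hj j
  simp at this

theorem bond_sum_le (n : ℕ) (Λ : Finset (Fin 3 → ℤ)) (k : Fin 3 → ℝ) :
    n * ∑ p ∈ bonds Λ, (2 - 2 * Real.cos (phase Λ k p.1 - phase Λ k p.2)) ≤
      2 * Λ.card * disp n k := by
  have h1 : ∑ p ∈ bonds Λ, (2 - 2 * Real.cos (phase Λ k p.1 - phase Λ k p.2)) ≤
      ∑ p : Λ × Λ, ∑ j : Fin 3, (if (p.2 : Fin 3 → ℤ) = (p.1 : Fin 3 → ℤ) + Pi.single j 1 then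
        2 * (1 - Real.cos (k j)) else 0) := by
    rw [bonds, Finset.sum_filter]
    refine Finset.sum_le_sum fun p _ => ?_
    have hnn : ∀ j ∈ (Finset.univ : Finset (Fin 3)),
        0 ≤ (if (p.2 : Fin 3 → ℤ) = (p.1 : Fin 3 → ℤ) + Pi.single j 1 then
          2 * (1 - Real.cos (k j)) else 0) := by
      intro j _
      split_ifs
      · have := Real.cos_le_one (k j); linarith
      · exact le_refl _
    split_ifs with h
    · obtain ⟨j, hj⟩ := h
      refine le_trans ?_ (Finset.single_le_sum hnn (Finset.mem_univ j))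
      rw [if_pos hj]
      have : phase Λ k p.1 - phase Λ k p.2 = -(k j) := by
        rw [phase, phase, ← Finset.sum_sub_distrib, Finset.sum_eq_single j]
        · rw [hj]; simp; ring
        · intro i _ hi
          rw [hj]; simp [hi]
        · intro h; exact absurd (Finset.mem_univ _) h
      rw [this, Real.cos_neg]
      linarith
    · exact Finset.sum_nonneg hnn
  have h2 : ∑ p : Λ × Λ, ∑ j : Fin 3, (if (p.2 : Fin 3 → ℤ) = (p.1 : Fin 3 → ℤ) + Pi.single j 1 then
        2 * (1 - Real.cos (k j)) else 0) ≤ ∑ _x : Λ, ∑ j : Fin 3, 2 * (1 - Real.cos (k j)) := by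
    rw [Fintype.sum_prod_type]
    refine Finset.sum_le_sum fun x _ => ?_
    rw [Finset.sum_comm]
    refine Finset.sum_le_sum fun j _ => ?_
    have h0 : 0 ≤ 2 * (1 - Real.cos (k j)) := by
      have := Real.cos_le_one (k j); linarith
    by_cases hx : (x : Fin 3 → ℤ) + Pi.single j 1 ∈ Λ
    · rw [Finset.sum_eq_single (⟨_, hx⟩ : Λ)]
      · simp
      · intro y _ hy
        rw [if_neg]
        intro h
        exact hy (Subtype.ext h)
      · intro h; exact absurd (Finset.mem_univ _) h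
    · rw [Finset.sum_eq_zero]
      · exact h0
      · intro y _
        rw [if_neg]
        intro h
        exact hx (h ▸ y.2)
  have h3 : ∑ _x : Λ, ∑ j : Fin 3, 2 * (1 - Real.cos (k j)) =
      2 * Λ.card * ∑ j, (1 - Real.cos (k j)) := by
    rw [Finset.sum_const, Finset.card_univ, Fintype.card_coe, nsmul_eq_mul, ← Finset.mul_sum]
    ring
  rw [h3] at h2
  have h4 := h1.trans h2
  calc _ ≤ (n : ℝ) * (2 * Λ.card * ∑ j, (1 - Real.cos (k j))) :=
        mul_le_mul_of_nonneg_left h4 (Nat.cast_nonneg n)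
    _ = _ := by rw [disp]; ring

/-- the finite volume partition function -/
noncomputable def rho (n : ℕ) (β h : ℝ) (Λ : Finset (Fin 3 → ℤ)) :
    Matrix (Λ → Fin (n + 1)) (Λ → Fin (n + 1)) ℂ :=
  NormedSpace.exp (-bham n (bonds Λ) β h)

noncomputable def partZ (n : ℕ) (β h : ℝ) (Λ : Finset (Fin 3 → ℤ)) : ℝ :=
  (trace (rho n β h Λ)).re

theorem bhamΛ_isHermitian (n : ℕ) (β h : ℝ) (Λ : Finset (Fin 3 → ℤ)) :
    (-bham n (bonds Λ) β h).IsHermitian := (bham_isHermitian n _ (bonds_ne Λ) β h).neg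

theorem partZ_pos (n : ℕ) (β h : ℝ) (Λ : Finset (Fin 3 → ℤ)) : 0 < partZ n β h Λ :=
  trace_exp_pos (bhamΛ_isHermitian n β h Λ)

/-- the finite-volume magnetization per site -/
noncomputable def mag (n : ℕ) (β h : ℝ) (Λ : Finset (Fin 3 → ℤ)) : ℝ :=
  ev (rho n β h Λ) (Mtot n Λ) / (partZ n β h Λ * Λ.card)

/-- the partial sums of the ideal spin wave density -/
noncomputable def swd (n : ℕ) (J : ℕ) (β h t : ℝ) : ℝ :=
  ∑ j ∈ Finset.range J, (1 / (2 * π) ^ 3) *
    ∫ k in zone, Real.exp (-((j + 1 : ℕ) * (β * (h + t * disp n k))))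

theorem phase_continuous (Λ : Finset (Fin 3 → ℤ)) (v : Λ) :
    Continuous fun k => phase Λ k v := by
  unfold phase; fun_prop

theorem disp_continuous (n : ℕ) : Continuous (disp n) := by
  unfold disp; fun_prop

theorem integral_corr (n : ℕ) (Λ : Finset (Fin 3 → ℤ))
    (ρ : Matrix (Λ → Fin (n + 1)) (Λ → Fin (n + 1)) ℂ) :
    ∫ k in zone, corr n ρ (phase Λ k) = (2 * π) ^ 3 * ∑ v, ev ρ (Mop n v * Pop n v) := by
  have hint : ∀ v w : Λ, Integrable (fun k => Real.cos (phase Λ k v - phase Λ k w) *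
      ev ρ (Mop n v * Pop n w)) (volume.restrict zone) := by
    intro v w
    apply ContinuousOn.integrableOn_compact isCompact_zone
    have h1 := phase_continuous Λ v
    have h2 := phase_continuous Λ w
    fun_prop
  simp only [corr]
  rw [integral_finsetSum _ fun v _ => integrable_finsetSum _ fun w _ => hint v w, Finset.mul_sum]
  refine Finset.sum_congr rfl fun v _ => ?_
  rw [integral_finsetSum _ fun w _ => hint v w]
  have h1 : ∀ w : Λ, ∫ k in zone, Real.cos (phase Λ k v - phase Λ k w) *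
      ev ρ (Mop n v * Pop n w) = (if v = w then (2 * π) ^ 3 else 0) * ev ρ (Mop n v * Pop n w) := by
    intro w
    rw [integral_mul_const]
    congr 1
    have h2 : ∀ k : Fin 3 → ℝ, phase Λ k v - phase Λ k w =
        ∑ i, k i * ((((v : Fin 3 → ℤ) - (w : Fin 3 → ℤ)) i : ℤ) : ℝ) := by
      intro k
      rw [phase, phase, ← Finset.sum_sub_distrib]
      refine Finset.sum_congr rfl fun i _ => ?_
      rw [Pi.sub_apply]; push_cast; ring
    simp_rw [h2]
    rw [integral_zone_cos]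
    by_cases hvw : v = w
    · subst hvw; simp
    · rw [if_neg hvw, if_neg]
      intro h
      apply hvw
      exact Subtype.ext (sub_eq_zero.1 h)
  simp_rw [h1]
  simp only [ite_mul, zero_mul, Finset.sum_ite_eq, Finset.mem_univ, if_true]

theorem finite_volume (n : ℕ) (hn : 1 ≤ n) (β h : ℝ) (hβ : 0 < β) (hh : 0 < h)
    (Λ : Finset (Fin 3 → ℤ)) (hΛ : Λ.Nonempty) (J : ℕ) (hm : 0 < mag n β h Λ) :
    mag n β h Λ * swd n J β h ((n : ℝ) / 2 / mag n β h Λ) ≤
      (n : ℝ) / 2 * ((n : ℝ) / 2 - mag n β h Λ) := by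
  set m := mag n β h Λ with hmdef
  set ρ := rho n β h Λ with hρ
  set Z := partZ n β h Λ with hZ
  have hZpos : 0 < Z := partZ_pos n β h Λ
  have hcard : (0 : ℝ) < Λ.card := by exact_mod_cast hΛ.card_pos
  have hn' : (0 : ℝ) < n := by exact_mod_cast hn
  have hevM : ev ρ (Mtot n Λ) = m * (Z * Λ.card) := by
    rw [hmdef, mag, ← hρ, ← hZ, div_mul_cancel₀ _ (by positivity)]
  have hapos : 0 < 2 * ev ρ (Mtot n Λ) := by rw [hevM]; positivity
  -- pointwise bound
  have hpt : ∀ k : Fin 3 → ℝ, 2 * ev ρ (Mtot n Λ) * ∑ j ∈ Finset.range J,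
      Real.exp (-((j + 1 : ℕ) * (β * (h + (n : ℝ) / 2 / m * disp n k)))) ≤
        corr n ρ (phase Λ k) := by
    intro k
    have h1 := phase_ineq n (bonds Λ) (bonds_ne Λ) β h hβ (phase Λ k) (ρ := ρ) rfl hapos
    have hc0 : 0 ≤ corr n ρ (phase Λ k) := by
      by_contra hcon
      push Not at hcon
      have hx : 0 ≤ Real.exp ((β * (2 * ((n : ℝ) / 2) ^ 2 * (trace ρ).re *
        (∑ p ∈ bonds Λ, (2 - 2 * Real.cos (phase Λ k p.1 - phase Λ k p.2))) +
          h * (2 * ev ρ (Mtot n Λ)))) / (2 * ev ρ (Mtot n Λ))) - 1 := by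
        have : 0 ≤ (β * (2 * ((n : ℝ) / 2) ^ 2 * (trace ρ).re *
          (∑ p ∈ bonds Λ, (2 - 2 * Real.cos (phase Λ k p.1 - phase Λ k p.2))) +
          h * (2 * ev ρ (Mtot n Λ)))) / (2 * ev ρ (Mtot n Λ)) := by
          apply div_nonneg _ hapos.le
          apply mul_nonneg hβ.le
          apply add_nonneg
          · apply mul_nonneg
            · have : 0 ≤ (trace ρ).re := hZpos.le
              positivity
            · exact Finset.sum_nonneg fun p _ => by
                have := Real.cos_le_one (phase Λ k p.1 - phase Λ k p.2); linarith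
          · positivity
        have := Real.add_one_le_exp ((β * (2 * ((n : ℝ) / 2) ^ 2 * (trace ρ).re *
          (∑ p ∈ bonds Λ, (2 - 2 * Real.cos (phase Λ k p.1 - phase Λ k p.2))) +
          h * (2 * ev ρ (Mtot n Λ)))) / (2 * ev ρ (Mtot n Λ)))
        linarith
      nlinarith [mul_nonneg (neg_nonneg.2 hcon.le) hx]
    have hxle : (β * (2 * ((n : ℝ) / 2) ^ 2 * (trace ρ).re *
        (∑ p ∈ bonds Λ, (2 - 2 * Real.cos (phase Λ k p.1 - phase Λ k p.2))) +
          h * (2 * ev ρ (Mtot n Λ)))) / (2 * ev ρ (Mtot n Λ)) ≤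
        β * (h + (n : ℝ) / 2 / m * disp n k) := by
      rw [mul_div_assoc]
      apply mul_le_mul_of_nonneg_left _ hβ.le
      rw [add_div, mul_div_assoc h, div_self hapos.ne', mul_one, add_comm]
      apply add_le_add_right
      rw [div_le_iff₀ hapos, hevM]
      have h2 := bond_sum_le n Λ k
      have h3 : (trace ρ).re = Z := rfl
      rw [h3]
      have h4 : (n : ℝ) / 2 / m * disp n k * (2 * (m * (Z * Λ.card))) =
          (n : ℝ) / 2 * Z * (2 * Λ.card * disp n k) := by
        field_simp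
      rw [h4]
      have h5 : 2 * ((n : ℝ) / 2) ^ 2 * Z *
          ∑ p ∈ bonds Λ, (2 - 2 * Real.cos (phase Λ k p.1 - phase Λ k p.2)) =
          (n : ℝ) / 2 * Z * (n * ∑ p ∈ bonds Λ, (2 - 2 * Real.cos (phase Λ k p.1 - phase Λ k p.2))) := by
        ring
      rw [h5]
      exact mul_le_mul_of_nonneg_left h2 (by positivity)
    apply geom_bound hapos.le
    · have := disp_nonneg n k
      positivity
    · refine h1.trans (mul_le_mul_of_nonneg_left ?_ hc0)
      exact sub_le_sub_right (Real.exp_le_exp.2 hxle) 1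
  -- integrate
  have hcont : ∀ j : ℕ, IntegrableOn (fun k : Fin 3 → ℝ =>
      Real.exp (-((j + 1 : ℕ) * (β * (h + (n : ℝ) / 2 / m * disp n k))))) zone := by
    intro j
    apply ContinuousOn.integrableOn_compact isCompact_zone
    have := disp_continuous n
    fun_prop
  have hI : ∫ k in zone, 2 * ev ρ (Mtot n Λ) * ∑ j ∈ Finset.range J,
      Real.exp (-((j + 1 : ℕ) * (β * (h + (n : ℝ) / 2 / m * disp n k)))) ≤
      ∫ k in zone, corr n ρ (phase Λ k) := by
    apply integral_mono _ _ hpt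
    · apply Integrable.const_mul
      exact integrable_finsetSum _ fun j _ => hcont j
    · apply ContinuousOn.integrableOn_compact isCompact_zone
      unfold corr
      have h1 : ∀ v, Continuous fun k => phase Λ k v := phase_continuous Λ
      fun_prop
  rw [integral_corr, integral_const_mul, integral_finsetSum _ fun j _ => hcont j] at hI
  have hswd : ∑ j ∈ Finset.range J, ∫ k in zone,
      Real.exp (-((j + 1 : ℕ) * (β * (h + (n : ℝ) / 2 / m * disp n k)))) =
      (2 * π) ^ 3 * swd n J β h ((n : ℝ) / 2 / m) := by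
    rw [swd, Finset.mul_sum]
    refine Finset.sum_congr rfl fun j _ => ?_
    have : (2 * π) ^ 3 ≠ 0 := by positivity
    field_simp
  rw [hswd] at hI
  have hd := diag_corr_le n (bhamΛ_isHermitian n β h Λ)
  change ∑ v, ev ρ (Mop n v * Pop n v) ≤ (n : ℝ) * ((n : ℝ) / 2 * Fintype.card Λ * Z -
    ev ρ (Mtot n Λ)) at hd
  rw [Fintype.card_coe, hevM] at hd
  rw [hevM] at hI
  have hπ : 0 < (2 * π) ^ 3 := by positivity
  have h6 : 2 * (m * (Z * Λ.card)) * ((2 * π) ^ 3 * swd n J β h ((n : ℝ) / 2 / m)) ≤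
      (2 * π) ^ 3 * ((n : ℝ) * ((n : ℝ) / 2 * Λ.card * Z - m * (Z * Λ.card))) :=
    hI.trans (mul_le_mul_of_nonneg_left hd hπ.le)
  have h7 : (2 * ((2 * π) ^ 3 * (Z * Λ.card))) * (m * swd n J β h ((n : ℝ) / 2 / m)) ≤
      (2 * ((2 * π) ^ 3 * (Z * Λ.card))) * ((n : ℝ) / 2 * ((n : ℝ) / 2 - m)) := by
    calc _ = 2 * (m * (Z * Λ.card)) * ((2 * π) ^ 3 * swd n J β h ((n : ℝ) / 2 / m)) := by ring
      _ ≤ _ := h6
      _ = _ := by ring
  exact le_of_mul_le_mul_left h7 (by positivity)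

end Vale.Agent.P361
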