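import Vale.Agent.Lib.P361.AllTemp

open Matrix Filter Topology MeasureTheory Real

namespace Vale.Agent.P361

/-- infinite volume inequality between two fields `0 ≤ h₀ < h` -/
theorem slope_ineq' (n : ℕ) (hn : 1 ≤ n) {β h₀ h : ℝ} (hβ : 0 < β) (h0 : 0 ≤ h₀) (hh : h₀ < h)
    (J : ℕ) {q : ℝ} (hqdef : q = (pressure n β h - pressure n β h₀) / (h - h₀)) (hq : 0 < q) :
    q * swd n J β h ((n : ℝ) / 2 / q) ≤ (n : ℝ) / 2 * ((n : ℝ) / 2 - q) := by
  have hd : 0 < h - h₀ := by linarith
  set qN : ℕ → ℝ := fun N => (finitePressure n β h (box N) - finitePressure n β h₀ (box N)) /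
    (h - h₀) with hqN
  have hlim : Tendsto qN atTop (𝓝 q) := by
    rw [hqdef]
    exact ((tendsto_pressure n hβ h).sub (tendsto_pressure n hβ h₀)).div_const (h - h₀)
  have hev : ∀ᶠ N in atTop, qN N * swd n J β h ((n : ℝ) / 2 / qN N) ≤
      (n : ℝ) / 2 * ((n : ℝ) / 2 - qN N) := by
    filter_upwards [hlim.eventually (eventually_gt_nhds hq)] with N hN
    apply finite_volume_slope n hn β h hβ (by linarith) (box N) (box_nonempty N) J hN
    have h1 := pressure_support n hβ h h₀ (box N) (box_nonempty N)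
    rw [hqN]
    simp only
    rw [div_le_iff₀ hd]
    linarith
  have hL : Tendsto (fun N => qN N * swd n J β h ((n : ℝ) / 2 / qN N)) atTop
      (𝓝 (q * swd n J β h ((n : ℝ) / 2 / q))) := by
    apply hlim.mul
    have h1 : Tendsto (fun N => (n : ℝ) / 2 / qN N) atTop (𝓝 ((n : ℝ) / 2 / q)) :=
      tendsto_const_nhds.div hlim hq.ne'
    have h2 : Continuous fun t => swd n J β h t :=
      (swd_continuous n J β).comp (Continuous.prodMk_right h)
    exact (h2.tendsto _).comp h1
  have hR : Tendsto (fun N => (n : ℝ) / 2 * ((n : ℝ) / 2 - qN N)) atTop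
      (𝓝 ((n : ℝ) / 2 * ((n : ℝ) / 2 - q))) := (tendsto_const_nhds.sub hlim).const_mul _
  exact le_of_tendsto_of_tendsto hL hR hev

theorem lim_aux' (G : ℝ → ℝ → ℝ) (hG : Continuous fun p : ℝ × ℝ => G p.1 p.2) (S h₀ : ℝ)
    {l : Filter ℝ} {q : ℝ → ℝ} {m : ℝ} (hq : Tendsto q l (𝓝 m))
    (hm : m ≠ 0) (hid : Tendsto (fun h : ℝ => h) l (𝓝 h₀)) :
    Tendsto (fun h => q h * G h (S / q h)) l (𝓝 (m * G h₀ (S / m))) := by
  have h1 : Tendsto (fun h => S / q h) l (𝓝 (S / m)) := tendsto_const_nhds.div hq hm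
  have h3 : Tendsto (fun h : ℝ => (h, S / q h)) l (𝓝 (h₀, S / m)) := hid.prodMk_nhds h1
  have h2 : Tendsto (fun h : ℝ => G h (S / q h)) l (𝓝 (G h₀ (S / m))) :=
    (hG.tendsto (h₀, S / m)).comp h3
  exact hq.mul h2

theorem hasDeriv_pressure' (n : ℕ) {β : ℝ} (hβ : 0 < β) (h₀ : ℝ) :
    HasDerivWithinAt (fun h => pressure n β h)
      (derivWithin (fun h => pressure n β h) (Set.Ioi h₀) h₀) (Set.Ioi h₀) h₀ :=
  (pressure_convex n hβ).hasDerivWithinAt_rightDeriv_of_mem_interior (by simp)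

/-- The self-consistent spin-wave bound for the magnetization at every field `h₀ ≥ 0`. -/
theorem magnetization_ineq' (n : ℕ) (hn : 1 ≤ n) {β h₀ : ℝ} (hβ : 0 < β) (h0 : 0 ≤ h₀) (J : ℕ)
    {m : ℝ} (hmdef : m = derivWithin (fun h => pressure n β h) (Set.Ioi h₀) h₀) (hm : 0 < m) :
    m * swd n J β h₀ ((n : ℝ) / 2 / m) ≤ (n : ℝ) / 2 * ((n : ℝ) / 2 - m) := by
  have hd := hasDeriv_pressure' n hβ h₀
  rw [← hmdef, hasDerivWithinAt_iff_tendsto_slope] at hd
  have hset : Set.Ioi h₀ \ {h₀} = Set.Ioi h₀ := by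
    ext x; simp only [Set.mem_sdiff, Set.mem_Ioi, Set.mem_singleton_iff]
    constructor
    · exact fun h => h.1
    · exact fun h => ⟨h, h.ne'⟩
  rw [hset] at hd
  have hslope : ∀ h, slope (fun h => pressure n β h) h₀ h =
      (pressure n β h - pressure n β h₀) / (h - h₀) := by
    intro h; rw [slope_def_field]
  obtain ⟨q, hqd⟩ : ∃ q : ℝ → ℝ, q = fun h => (pressure n β h - pressure n β h₀) / (h - h₀) :=
    ⟨_, rfl⟩
  have hq : Tendsto q (𝓝[>] h₀) (𝓝 m) := by
    rw [hqd]; exact hd.congr hslope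
  have hid : Tendsto (fun h : ℝ => h) (𝓝[>] h₀) (𝓝 h₀) := tendsto_id.mono_left nhdsWithin_le_nhds
  have hev : ∀ᶠ h in 𝓝[>] h₀, q h * swd n J β h ((n : ℝ) / 2 / q h) ≤
      (n : ℝ) / 2 * ((n : ℝ) / 2 - q h) := by
    filter_upwards [hq.eventually (eventually_gt_nhds hm), self_mem_nhdsWithin] with h h1 h2
    exact slope_ineq' n hn hβ h0 h2 J (by rw [hqd]) h1
  have hL := lim_aux' (swd n J β) (swd_continuous n J β) ((n : ℝ) / 2) h₀ hq hm.ne' hid
  have hR : Tendsto (fun h => (n : ℝ) / 2 * ((n : ℝ) / 2 - q h)) (𝓝[>] h₀)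
      (𝓝 ((n : ℝ) / 2 * ((n : ℝ) / 2 - m))) := (tendsto_const_nhds.sub hq).const_mul _
  exact le_of_tendsto_of_tendsto hL hR hev

/-- passage from the partial sums to the Bose integral, with a field -/
theorem bose_integral' (n : ℕ) {β t B h : ℝ} (hβ : 0 < β) (ht : 0 < t) (hh : 0 ≤ h)
    (hB : ∀ J, swd n J β h t ≤ B) :
    IntegrableOn (fun k => 1 / (Real.exp (β * (h + t * disp n k)) - 1)) zone ∧
      (1 / (2 * π) ^ 3) * ∫ k in zone, 1 / (Real.exp (β * (h + t * disp n k)) - 1) ≤ B := by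
  set F : ℕ → (Fin 3 → ℝ) → ℝ := fun j k =>
    Real.exp (-((j + 1 : ℕ) * (β * (h + t * disp n k)))) with hF
  have hint : ∀ j, Integrable (F j) (volume.restrict zone) := by
    intro j
    apply ContinuousOn.integrableOn_compact isCompact_zone
    have := disp_continuous n
    fun_prop
  have hpi : (0 : ℝ) < (2 * π) ^ 3 := by positivity
  have hnorm : ∀ j, ∫ k in zone, ‖F j k‖ = ∫ k in zone, F j k := by
    intro j
    congr 1
    ext k
    exact Real.norm_of_nonneg (Real.exp_pos _).le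
  have hnn : ∀ j, 0 ≤ ∫ k in zone, F j k := fun j => integral_nonneg fun k => (Real.exp_pos _).le
  have hbound : ∀ J, ∑ j ∈ Finset.range J, ∫ k in zone, F j k ≤ (2 * π) ^ 3 * B := by
    intro J
    have h1 := hB J
    rw [swd, ← Finset.mul_sum] at h1
    rw [one_div, inv_mul_le_iff₀ hpi] at h1
    exact h1
  have hsum : Summable fun j => ∫ k in zone, F j k :=
    summable_of_sum_range_le hnn hbound
  have hsum' : Summable fun j => ∫ k in zone, ‖F j k‖ := by
    simp_rw [hnorm]; exact hsum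
  have hhas := hasSum_integral_of_summable_integral_norm hint hsum'
  have hts : ∀ k, ∑' j, F j k = 1 / (Real.exp (β * (h + t * disp n k)) - 1) := by
    intro k
    have hx : 0 ≤ β * (h + t * disp n k) := by
      have := disp_nonneg n k
      positivity
    rw [← bose_series hx]
  simp_rw [hts] at hhas
  have hpos : 0 < ∫ k in zone, F 0 k := by
    rw [integral_pos_iff_support_of_nonneg (fun k => (Real.exp_pos _).le) (hint 0)]
    have hsupp : Function.support (F 0) = Set.univ := by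
      ext k; simp only [Function.mem_support, Set.mem_univ, iff_true]
      exact (Real.exp_pos _).ne'
    rw [hsupp, Measure.restrict_apply_univ]
    have h3 := volume_zone
    rw [setIntegral_const, smul_eq_mul, mul_one] at h3
    by_contra hcon
    have h4 : volume zone = 0 := by simpa using hcon
    rw [Measure.real, h4] at h3
    simp only [ENNReal.toReal_zero] at h3
    exact absurd h3 hpi.ne
  have hval : 0 < ∫ k in zone, 1 / (Real.exp (β * (h + t * disp n k)) - 1) := by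
    rw [← hhas.tsum_eq]
    exact lt_of_lt_of_le hpos (hsum.le_tsum 0 fun j _ => hnn j)
  refine ⟨?_, ?_⟩
  · by_contra hni
    have := integral_undef hni
    rw [this] at hval
    exact lt_irrefl _ hval
  · rw [one_div, inv_mul_le_iff₀ hpi, ← hhas.tsum_eq]
    exact hsum.tsum_le_of_sum_range_le hbound

/-- The self-consistent spin-wave bound at every temperature and every field `h ≥ 0`. -/
theorem all_temp' (n : ℕ) (hn : 1 ≤ n) {β h : ℝ} (hβ : 0 < β) (hh : 0 ≤ h)
    {m : ℝ} (hmdef : m = derivWithin (fun h' => pressure n β h') (Set.Ioi h) h) (hm : 0 < m) :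
    IntegrableOn (fun k => 1 / (Real.exp (β * (h + (n : ℝ) / 2 / m * disp n k)) - 1)) zone ∧
    m / ((n : ℝ) / 2) * ((1 / (2 * π) ^ 3) *
      ∫ k in zone, 1 / (Real.exp (β * (h + (n : ℝ) / 2 / m * disp n k)) - 1)) ≤
        (n : ℝ) / 2 - m := by
  have hn' : (0 : ℝ) < (n : ℝ) / 2 := by
    have : (0 : ℝ) < n := by exact_mod_cast hn
    positivity
  have h1 : ∀ J, swd n J β h ((n : ℝ) / 2 / m) ≤ ((n : ℝ) / 2 - m) / (m / ((n : ℝ) / 2)) := by
    intro J
    have h2 := magnetization_ineq' n hn hβ hh J hmdef hm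
    rw [le_div_iff₀ (by positivity), mul_comm, div_mul_eq_mul_div, div_le_iff₀ hn']
    linarith
  obtain ⟨h2, h3⟩ := bose_integral' n hβ (by positivity) hh h1
  refine ⟨h2, ?_⟩
  rw [le_div_iff₀ (by positivity)] at h3
  linarith

end Vale.Agent.P361
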