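import Vale.Agent.Lib.P361.Limit

open Matrix Filter Topology MeasureTheory Real

namespace Vale.Agent.P361

/-- infinite volume inequality at positive field, in terms of difference quotients -/
theorem slope_ineq (n : ℕ) (hn : 1 ≤ n) {β h : ℝ} (hβ : 0 < β) (hh : 0 < h) (J : ℕ)
    (hq : 0 < (pressure n β h - pressure n β 0) / h) :
    (pressure n β h - pressure n β 0) / h *
      swd n J β h ((n : ℝ) / 2 / ((pressure n β h - pressure n β 0) / h)) ≤
      (n : ℝ) / 2 * ((n : ℝ) / 2 - (pressure n β h - pressure n β 0) / h) := by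
  set q := (pressure n β h - pressure n β 0) / h with hqdef
  set qN : ℕ → ℝ := fun N => (finitePressure n β h (box N) - finitePressure n β 0 (box N)) / h
    with hqN
  have hlim : Tendsto qN atTop (𝓝 q) :=
    ((tendsto_pressure n hβ h).sub (tendsto_pressure n hβ 0)).div_const h
  have hev : ∀ᶠ N in atTop, qN N * swd n J β h ((n : ℝ) / 2 / qN N) ≤
      (n : ℝ) / 2 * ((n : ℝ) / 2 - qN N) := by
    filter_upwards [hlim.eventually (eventually_gt_nhds hq)] with N hN
    apply finite_volume_slope n hn β h hβ hh (box N) (box_nonempty N) J hN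
    have h1 := pressure_support n hβ h 0 (box N) (box_nonempty N)
    rw [hqN]
    simp only
    rw [div_le_iff₀ hh]
    linarith
  have hL : Tendsto (fun N => qN N * swd n J β h ((n : ℝ) / 2 / qN N)) atTop
      (𝓝 (q * swd n J β h ((n : ℝ) / 2 / q))) := by
    apply hlim.mul
    have h1 : Tendsto (fun N => (n : ℝ) / 2 / qN N) atTop (𝓝 ((n : ℝ) / 2 / q)) :=
      tendsto_const_nhds.div hlim hq.ne'
    have h2 : Continuous fun t => swd n J β h t :=
      (swd_continuous n J β).comp (Continuous.prodMk_right h)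
    exact (h2.tendsto _).comp h1
  have hR : Tendsto (fun N => (n : ℝ) / 2 * ((n : ℝ) / 2 - qN N)) atTop
      (𝓝 ((n : ℝ) / 2 * ((n : ℝ) / 2 - q))) := (tendsto_const_nhds.sub hlim).const_mul _
  exact le_of_tendsto_of_tendsto hL hR hev

theorem lim_aux (G : ℝ → ℝ → ℝ) (hG : Continuous fun p : ℝ × ℝ => G p.1 p.2) (S : ℝ)
    {l : Filter ℝ} {q : ℝ → ℝ} {m : ℝ} (hq : Tendsto q l (𝓝 m))
    (hm : m ≠ 0) (hid : Tendsto (fun h : ℝ => h) l (𝓝 0)) :
    Tendsto (fun h => q h * G h (S / q h)) l (𝓝 (m * G 0 (S / m))) := by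
  have h1 : Tendsto (fun h => S / q h) l (𝓝 (S / m)) := tendsto_const_nhds.div hq hm
  have h3 : Tendsto (fun h : ℝ => (h, S / q h)) l (𝓝 ((0 : ℝ), S / m)) := hid.prodMk_nhds h1
  have h2 : Tendsto (fun h : ℝ => G h (S / q h)) l (𝓝 (G 0 (S / m))) :=
    (hG.tendsto ((0 : ℝ), S / m)).comp h3
  exact hq.mul h2

/-- The self-consistent spin-wave bound for the spontaneous magnetization, all temperatures. -/
theorem magnetization_ineq (n : ℕ) (hn : 1 ≤ n) {β : ℝ} (hβ : 0 < β) (J : ℕ)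
    (hm : 0 < spontaneousMagnetization n β) :
    spontaneousMagnetization n β *
      swd n J β 0 ((n : ℝ) / 2 / spontaneousMagnetization n β) ≤
      (n : ℝ) / 2 * ((n : ℝ) / 2 - spontaneousMagnetization n β) := by
  set m := spontaneousMagnetization n β with hmdef
  have hd := hasDeriv_pressure n hβ
  rw [hasDerivWithinAt_iff_tendsto_slope] at hd
  have hset : Set.Ioi (0 : ℝ) \ {0} = Set.Ioi 0 := by
    ext x; simp only [Set.mem_sdiff, Set.mem_Ioi, Set.mem_singleton_iff]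
    constructor
    · exact fun h => h.1
    · exact fun h => ⟨h, h.ne'⟩
  rw [hset] at hd
  have hslope : ∀ h, slope (fun h => pressure n β h) 0 h =
      (pressure n β h - pressure n β 0) / h := by
    intro h; rw [slope_def_field, sub_zero]
  have hq : Tendsto (fun h => (pressure n β h - pressure n β 0) / h) (𝓝[>] 0) (𝓝 m) :=
    hd.congr hslope
  have hid : Tendsto (fun h : ℝ => h) (𝓝[>] 0) (𝓝 0) := tendsto_id.mono_left nhdsWithin_le_nhds
  have hev : ∀ᶠ h in 𝓝[>] (0 : ℝ), (pressure n β h - pressure n β 0) / h *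
      swd n J β h ((n : ℝ) / 2 / ((pressure n β h - pressure n β 0) / h)) ≤
      (n : ℝ) / 2 * ((n : ℝ) / 2 - (pressure n β h - pressure n β 0) / h) := by
    filter_upwards [hq.eventually (eventually_gt_nhds hm), self_mem_nhdsWithin] with h h1 h2
    exact slope_ineq n hn hβ h2 J h1
  have hL := lim_aux (swd n J β) (swd_continuous n J β) ((n : ℝ) / 2) hq hm.ne' hid
  have hR : Tendsto (fun h => (n : ℝ) / 2 * ((n : ℝ) / 2 -
      (pressure n β h - pressure n β 0) / h)) (𝓝[>] 0)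
      (𝓝 ((n : ℝ) / 2 * ((n : ℝ) / 2 - m))) := (tendsto_const_nhds.sub hq).const_mul _
  exact le_of_tendsto_of_tendsto hL hR hev

/-- gaussian lower bound for the spin wave sums -/
theorem swd_lower (n J : ℕ) {β t : ℝ} (hβ : 0 ≤ β) (ht : 0 ≤ t) :
    ∑ j ∈ Finset.range J, (1 / (2 * π) ^ 3) *
      (∫ s in Set.Icc (-π) π, Real.exp (-(((j : ℝ) + 1) * t * ((n : ℝ) / 2) * β) * s ^ 2)) ^ 3 ≤
      swd n J β 0 t := by
  refine Finset.sum_le_sum fun j _ => ?_
  apply mul_le_mul_of_nonneg_left _ (by positivity)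
  have h1 : (∫ s in Set.Icc (-π) π,
      Real.exp (-(((j : ℝ) + 1) * t * ((n : ℝ) / 2) * β) * s ^ 2)) ^ 3 =
      ∫ k in zone, ∏ i, Real.exp (-(((j : ℝ) + 1) * t * ((n : ℝ) / 2) * β) * (k i) ^ 2) := by
    rw [integral_zone_prod (fun _ s => Real.exp (-(((j : ℝ) + 1) * t * ((n : ℝ) / 2) * β) * s ^ 2))]
    simp
  rw [h1]
  apply integral_mono
  · apply ContinuousOn.integrableOn_compact isCompact_zone
    fun_prop
  · apply ContinuousOn.integrableOn_compact isCompact_zone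
    have := disp_continuous n
    fun_prop
  · intro k
    simp only
    rw [← Real.exp_sum]
    apply Real.exp_le_exp.2
    rw [← Finset.mul_sum, neg_mul, zero_add]
    apply neg_le_neg
    have h2 : disp n k ≤ (n : ℝ) / 2 * ∑ i, (k i) ^ 2 := by
      rw [disp, div_mul_eq_mul_div, mul_div_assoc]
      apply mul_le_mul_of_nonneg_left _ (Nat.cast_nonneg n)
      rw [Finset.sum_div]
      refine Finset.sum_le_sum fun i _ => ?_
      have := Real.one_sub_sq_div_two_le_cos (x := k i)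
      linarith
    have h3 : 0 ≤ ((j : ℝ) + 1) * (β * t) := by positivity
    push_cast
    calc ((j : ℝ) + 1) * (β * (t * disp n k)) = ((j : ℝ) + 1) * (β * t) * disp n k := by ring
      _ ≤ ((j : ℝ) + 1) * (β * t) * ((n : ℝ) / 2 * ∑ i, (k i) ^ 2) :=
          mul_le_mul_of_nonneg_left h2 h3
      _ = _ := by ring

theorem gauss_limit {a : ℝ} (ha : 0 < a) :
    Tendsto (fun β : ℝ => √β * ∫ s in Set.Icc (-π) π, Real.exp (-(a * β) * s ^ 2)) atTop
      (𝓝 (√(π / a))) := by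
  have h1 : ∀ᶠ β : ℝ in atTop, ∫ r in (√β * (-π))..(√β * π), Real.exp (-a * r ^ 2) =
      √β * ∫ s in Set.Icc (-π) π, Real.exp (-(a * β) * s ^ 2) := by
    filter_upwards [eventually_gt_atTop 0] with β hβ
    rw [integral_Icc_eq_integral_Ioc, ← intervalIntegral.integral_of_le (by linarith [Real.pi_pos])]
    have := intervalIntegral.mul_integral_comp_mul_left (a := -π) (b := π)
      (f := fun r => Real.exp (-a * r ^ 2)) (√β)
    rw [← this]
    congr 1
    apply intervalIntegral.integral_congr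
    intro s _
    simp only
    congr 1
    rw [mul_pow, Real.sq_sqrt hβ.le]
    ring
  have h2 : Tendsto (fun β : ℝ => ∫ r in (√β * (-π))..(√β * π), Real.exp (-a * r ^ 2)) atTop
      (𝓝 (∫ r, Real.exp (-a * r ^ 2))) := by
    apply intervalIntegral_tendsto_integral (integrable_exp_neg_mul_sq ha)
    · apply Tendsto.atTop_mul_const_of_neg (by linarith [Real.pi_pos])
      exact Real.tendsto_sqrt_atTop
    · apply Tendsto.atTop_mul_const Real.pi_pos
      exact Real.tendsto_sqrt_atTop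
  rw [integral_gaussian] at h2
  exact h2.congr' h1

/-- the limiting constant -/
noncomputable def cst (n J : ℕ) (η : ℝ) : ℝ :=
  (1 - η) * ∑ j ∈ Finset.range J, (1 / (2 * π) ^ 3) *
    √(π / (((j : ℝ) + 1) * (1 / (1 - η)) * ((n : ℝ) / 2))) ^ 3

theorem eventually_lower (n : ℕ) (hn : 1 ≤ n) (J : ℕ) {η c : ℝ} (h0 : 0 < η) (h1 : η < 1)
    (hc : c < cst n J η) :
    ∀ᶠ β in atTop, c < β ^ (3 / 2 : ℝ) * ((n : ℝ) / 2 - spontaneousMagnetization n β) := by
  have hn' : (0 : ℝ) < n := by exact_mod_cast hn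
  have hη : 0 < 1 - η := by linarith
  have hlim : Tendsto (fun β : ℝ => (1 - η) * ∑ j ∈ Finset.range J, (1 / (2 * π) ^ 3) *
      (√β * ∫ s in Set.Icc (-π) π,
        Real.exp (-((((j : ℝ) + 1) * (1 / (1 - η)) * ((n : ℝ) / 2)) * β) * s ^ 2)) ^ 3) atTop
      (𝓝 (cst n J η)) := by
    unfold cst
    apply Tendsto.const_mul
    apply tendsto_finsetSum
    intro j _
    apply Tendsto.const_mul
    apply Tendsto.pow
    exact gauss_limit (by positivity)
  have hbig : ∀ᶠ β : ℝ in atTop, c < β ^ (3 / 2 : ℝ) * (η * ((n : ℝ) / 2)) := by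
    have : Tendsto (fun β : ℝ => β ^ (3 / 2 : ℝ) * (η * ((n : ℝ) / 2))) atTop atTop :=
      (tendsto_rpow_atTop (by norm_num)).atTop_mul_const (by positivity)
    exact this.eventually_gt_atTop c
  filter_upwards [hlim.eventually (lt_mem_nhds hc), hbig, eventually_gt_atTop 0]
    with β hβ1 hβ2 hβ
  set m := spontaneousMagnetization n β with hm
  have hβp : 0 < β ^ (3 / 2 : ℝ) := Real.rpow_pos_of_pos hβ _
  rcases lt_or_ge m ((1 - η) * ((n : ℝ) / 2)) with hlt | hge
  · refine hβ2.trans_le ?_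
    apply mul_le_mul_of_nonneg_left _ hβp.le
    linarith
  · have hmpos : 0 < m := lt_of_lt_of_le (by positivity) hge
    have hineq := magnetization_ineq n hn hβ J hmpos
    rw [← hm] at hineq
    have ht : (n : ℝ) / 2 / m ≤ 1 / (1 - η) := by
      rw [div_le_div_iff₀ hmpos hη]
      linarith
    have hs1 := swd_mono n J (h := 0) hβ.le ht
    have hs2 := swd_lower n J hβ.le (show (0 : ℝ) ≤ 1 / (1 - η) by positivity)
    set X := ∑ j ∈ Finset.range J, (1 / (2 * π) ^ 3) *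
      (∫ s in Set.Icc (-π) π,
        Real.exp (-(((j : ℝ) + 1) * (1 / (1 - η)) * ((n : ℝ) / 2) * β) * s ^ 2)) ^ 3 with hX
    have hX0 : 0 ≤ X := Finset.sum_nonneg fun j _ => mul_nonneg (by positivity)
      (pow_nonneg (integral_nonneg fun s => (Real.exp_pos _).le) 3)
    have h3 : (1 - η) * X ≤ (n : ℝ) / 2 - m := by
      have h4 : (n : ℝ) / 2 * ((1 - η) * X) ≤ (n : ℝ) / 2 * ((n : ℝ) / 2 - m) := by
        calc (n : ℝ) / 2 * ((1 - η) * X) = ((1 - η) * ((n : ℝ) / 2)) * X := by ring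
          _ ≤ m * swd n J β 0 ((n : ℝ) / 2 / m) :=
              mul_le_mul hge (hs2.trans hs1) hX0 hmpos.le
          _ ≤ _ := hineq
      exact le_of_mul_le_mul_left h4 (by positivity)
    have h5 : β ^ (3 / 2 : ℝ) = √β ^ 3 := by
      rw [Real.sqrt_eq_rpow, ← Real.rpow_natCast, ← Real.rpow_mul hβ.le]
      norm_num
    have h6 : (1 - η) * ∑ j ∈ Finset.range J, (1 / (2 * π) ^ 3) *
      (√β * ∫ s in Set.Icc (-π) π,
        Real.exp (-((((j : ℝ) + 1) * (1 / (1 - η)) * ((n : ℝ) / 2)) * β) * s ^ 2)) ^ 3 =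
        β ^ (3 / 2 : ℝ) * ((1 - η) * X) := by
      rw [h5, hX, Finset.mul_sum, Finset.mul_sum, Finset.mul_sum]
      refine Finset.sum_congr rfl fun j _ => ?_
      ring
    rw [h6] at hβ1
    exact hβ1.trans_le (mul_le_mul_of_nonneg_left h3 hβp.le)

/-- The Bloch constant. -/
noncomputable def blochConst (n : ℕ) : ℝ :=
  (riemannZeta (3 / 2)).re / (8 * π ^ (3 / 2 : ℝ) * ((n : ℝ) / 2) ^ (3 / 2 : ℝ))

theorem zeta_re : (riemannZeta (3 / 2)).re = ∑' j : ℕ, 1 / ((j : ℝ) + 1) ^ (3 / 2 : ℝ) := by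
  have h1 : 1 < (3 / 2 : ℂ).re := by norm_num
  rw [zeta_eq_tsum_one_div_nat_add_one_cpow h1]
  have h2 : ∀ j : ℕ, 1 / ((j : ℂ) + 1) ^ (3 / 2 : ℂ) =
      ((1 / ((j : ℝ) + 1) ^ (3 / 2 : ℝ) : ℝ) : ℂ) := by
    intro j
    rw [Complex.ofReal_div, Complex.ofReal_cpow (by positivity)]
    push_cast
    rfl
  simp_rw [h2]
  rw [← Complex.ofReal_tsum, Complex.ofReal_re]

theorem summable_zeta : Summable fun j : ℕ => 1 / ((j : ℝ) + 1) ^ (3 / 2 : ℝ) := by
  have := (Real.summable_one_div_nat_rpow (p := 3 / 2)).2 (by norm_num)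
  have h2 := (summable_nat_add_iff 1).2 this
  refine h2.congr fun j => ?_
  push_cast
  rfl

theorem cst_zero (n J : ℕ) (hn : 1 ≤ n) : cst n J 0 =
    1 / (8 * π ^ (3 / 2 : ℝ) * ((n : ℝ) / 2) ^ (3 / 2 : ℝ)) *
      ∑ j ∈ Finset.range J, 1 / ((j : ℝ) + 1) ^ (3 / 2 : ℝ) := by
  have hn' : (0 : ℝ) < n := by exact_mod_cast hn
  rw [cst, sub_zero, one_mul, Finset.mul_sum]
  refine Finset.sum_congr rfl fun j _ => ?_
  have hj : (0 : ℝ) < (j : ℝ) + 1 := by positivity
  have h1 : √(π / (((j : ℝ) + 1) * (1 / 1) * ((n : ℝ) / 2))) ^ 3 =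
      π ^ (3 / 2 : ℝ) / (((j : ℝ) + 1) ^ (3 / 2 : ℝ) * ((n : ℝ) / 2) ^ (3 / 2 : ℝ)) := by
    have h2 : ∀ x : ℝ, 0 ≤ x → √x ^ 3 = x ^ (3 / 2 : ℝ) := by
      intro x hx
      rw [Real.sqrt_eq_rpow, ← Real.rpow_natCast, ← Real.rpow_mul hx]
      norm_num
    rw [h2 _ (by positivity), Real.div_rpow Real.pi_pos.le (by positivity), div_one, mul_one,
      Real.mul_rpow hj.le (by positivity)]
  rw [h1]
  have h3 : (2 * π) ^ 3 = 8 * (π ^ (3 / 2 : ℝ) * π ^ (3 / 2 : ℝ)) := by
    rw [← Real.rpow_add Real.pi_pos, show (3 / 2 : ℝ) + 3 / 2 = ((3 : ℕ) : ℝ) by norm_num,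
      Real.rpow_natCast]
    ring
  rw [h3]
  have h4 : 0 < π ^ (3 / 2 : ℝ) := Real.rpow_pos_of_pos Real.pi_pos _
  have h5 : 0 < ((j : ℝ) + 1) ^ (3 / 2 : ℝ) := Real.rpow_pos_of_pos hj _
  have h6 : 0 < ((n : ℝ) / 2) ^ (3 / 2 : ℝ) := Real.rpow_pos_of_pos (by positivity) _
  field_simp

/-- One half of Bloch's law, with the sharp constant. -/
theorem bloch_lower (n : ℕ) (hn : 1 ≤ n) {c : ℝ} (hc : c < blochConst n) :
    ∀ᶠ β in atTop, c < β ^ (3 / 2 : ℝ) * ((n : ℝ) / 2 - spontaneousMagnetization n β) := by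
  have hn' : (0 : ℝ) < n := by exact_mod_cast hn
  have h1 : Tendsto (fun J : ℕ => cst n J 0) atTop (𝓝 (blochConst n)) := by
    have h2 := summable_zeta.hasSum.tendsto_sum_nat
    have h3 := h2.const_mul (1 / (8 * π ^ (3 / 2 : ℝ) * ((n : ℝ) / 2) ^ (3 / 2 : ℝ)))
    rw [← zeta_re] at h3
    have h4 : blochConst n = 1 / (8 * π ^ (3 / 2 : ℝ) * ((n : ℝ) / 2) ^ (3 / 2 : ℝ)) *
        (riemannZeta (3 / 2)).re := by rw [blochConst]; ring
    rw [h4]
    exact h3.congr fun J => (cst_zero n J hn).symm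
  obtain ⟨J, hJ⟩ := (h1.eventually (lt_mem_nhds hc)).exists
  have h2 : ContinuousAt (fun η => cst n J η) 0 := by
    unfold cst
    have hs : ∀ j : ℕ, ContinuousAt (fun η : ℝ =>
        √(π / (((j : ℝ) + 1) * (1 / (1 - η)) * ((n : ℝ) / 2)))) 0 := by
      intro j
      apply ContinuousAt.sqrt
      apply ContinuousAt.div continuousAt_const
      · apply ContinuousAt.mul _ continuousAt_const
        apply ContinuousAt.mul continuousAt_const
        apply ContinuousAt.div continuousAt_const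
        · fun_prop
        · norm_num
      · have : (0 : ℝ) < (j : ℝ) + 1 := by positivity
        norm_num
        exact ⟨this.ne', by omega⟩
    fun_prop
  have h3 : ∀ᶠ η in 𝓝 (0 : ℝ), c < cst n J η := h2.eventually (lt_mem_nhds hJ)
  obtain ⟨ε, hε, hball⟩ := Metric.eventually_nhds_iff.1 h3
  set η := min (ε / 2) (1 / 2) with hη
  have hη0 : 0 < η := lt_min (by positivity) (by norm_num)
  have hη1 : η < 1 := lt_of_le_of_lt (min_le_right _ _) (by norm_num)
  have hηε : η < ε := lt_of_le_of_lt (min_le_left _ _) (by linarith)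
  have h4 : c < cst n J η := by
    apply hball
    rw [Real.dist_eq, sub_zero, abs_of_pos hη0]
    exact hηε
  exact eventually_lower n hn J hη0 hη1 h4

end Vale.Agent.P361
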