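import Mathlib

open Matrix NormedSpace
open scoped ComplexConjugate

namespace Vale.Agent.P361

variable {ι : Type*} [Fintype ι] [DecidableEq ι]

/-- unitary diagonalization data for a Hermitian matrix -/
theorem exists_diag {K : Matrix ι ι ℂ} (hK : K.IsHermitian) :
    ∃ (U : Matrix ι ι ℂ) (k : ι → ℝ), Uᴴ * U = 1 ∧ U * Uᴴ = 1 ∧
      K = U * diagonal (fun i => (k i : ℂ)) * Uᴴ ∧
      ∀ t : ℝ, exp ((t : ℂ) • K) = U * diagonal (fun i => ((Real.exp (t * k i) : ℝ) : ℂ)) * Uᴴ := by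
  refine ⟨hK.eigenvectorUnitary, hK.eigenvalues, ?_, ?_, ?_, ?_⟩
  · rw [← star_eq_conjTranspose]; exact Unitary.coe_star_mul_self _
  · rw [← star_eq_conjTranspose]; exact Unitary.coe_mul_star_self _
  · conv_lhs => rw [hK.spectral_theorem, Unitary.conjStarAlgAut_apply]
    rfl
  · intro t
    have h1 : K = (hK.eigenvectorUnitary : Matrix ι ι ℂ) *
        diagonal (fun i => (hK.eigenvalues i : ℂ)) * (hK.eigenvectorUnitary : Matrix ι ι ℂ)ᴴ := by
      conv_lhs => rw [hK.spectral_theorem, Unitary.conjStarAlgAut_apply]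
      rfl
    set U : Matrix ι ι ℂ := (hK.eigenvectorUnitary : Matrix ι ι ℂ) with hU
    have hUU : Uᴴ * U = 1 := by rw [← star_eq_conjTranspose]; exact Unitary.coe_star_mul_self _
    have hUU' : U * Uᴴ = 1 := by rw [← star_eq_conjTranspose]; exact Unitary.coe_mul_star_self _
    let u : (Matrix ι ι ℂ)ˣ := ⟨U, Uᴴ, hUU', hUU⟩
    have h2 : (t : ℂ) • K = (u : Matrix ι ι ℂ) *
        diagonal (fun i => ((t * hK.eigenvalues i : ℝ) : ℂ)) *
          ((u⁻¹ : (Matrix ι ι ℂ)ˣ) : Matrix ι ι ℂ) := by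
      conv_lhs => rw [h1]
      change _ = U * _ * Uᴴ
      rw [← smul_mul_assoc, ← mul_smul_comm, ← diagonal_smul]
      congr 3
      ext i
      simp
    rw [h2, Matrix.exp_units_conj, exp_diagonal]
    change U * _ * Uᴴ = _
    congr 3
    ext i
    simp [Complex.ofReal_exp, Complex.exp_eq_exp_ℂ]

theorem trace_diag_diag (f g : ι → ℝ) (B : Matrix ι ι ℂ) :
    trace (diagonal (fun i => (f i : ℂ)) * B * diagonal (fun i => (g i : ℂ)) * Bᴴ) =
      ((∑ i, ∑ j, f i * g j * ‖B i j‖ ^ 2 : ℝ) : ℂ) := by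
  simp only [trace, diag_apply, mul_apply, diagonal_apply, conjTranspose_apply]
  push_cast
  refine Finset.sum_congr rfl fun i _ => Finset.sum_congr rfl fun j _ => ?_
  simp only [ite_mul, zero_mul, mul_ite, mul_zero, Finset.sum_ite_eq, Finset.sum_ite_eq',
    Finset.mem_univ, if_true]
  have : B i j * star (B i j) = ((‖B i j‖ ^ 2 : ℝ) : ℂ) := by
    rw [RCLike.star_def, Complex.mul_conj, Complex.normSq_eq_norm_sq]
  calc (f i : ℂ) * B i j * (g j) * star (B i j) = f i * g j * (B i j * star (B i j)) := by ring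
    _ = _ := by rw [this]; push_cast; ring

/-- spectral weights of an operator `A` in the eigenbasis of `K` -/
theorem exists_weights {K : Matrix ι ι ℂ} (hK : K.IsHermitian) (A : Matrix ι ι ℂ) :
    ∃ (w u : ι × ι → ℝ), (∀ p, 0 ≤ w p) ∧
      (trace (exp (-K) * (Aᴴ * A))).re = ∑ p, w p ∧
      (trace (exp (-K) * (A * Aᴴ - Aᴴ * A))).re = ∑ p, w p * (Real.exp (u p) - 1) ∧
      (trace (exp (-K) * ((A * K - K * A) * Aᴴ - Aᴴ * (A * K - K * A)))).re =
        ∑ p, w p * (u p * (Real.exp (u p) - 1)) := by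
  obtain ⟨U, k, hU1, hU2, hKd, hexp⟩ := exists_diag hK
  have hexp' : exp (-K) = U * diagonal (fun i => ((Real.exp (-k i) : ℝ) : ℂ)) * Uᴴ := by
    have := hexp (-1)
    simpa using this
  set E : Matrix ι ι ℂ := diagonal (fun i => ((Real.exp (-k i) : ℝ) : ℂ)) with hE
  set D : Matrix ι ι ℂ := diagonal (fun i => (k i : ℂ)) with hD
  set B : Matrix ι ι ℂ := Uᴴ * A * U with hB
  have hBH : Bᴴ = Uᴴ * Aᴴ * U := by
    rw [hB]; simp [conjTranspose_mul, mul_assoc]
  clear_value B E D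
  have one_diag : (1 : Matrix ι ι ℂ) = diagonal (fun _ => ((1 : ℝ) : ℂ)) := by
    simp [← diagonal_one]
  have conj_trace : ∀ X : Matrix ι ι ℂ, trace (exp (-K) * X) = trace (E * (Uᴴ * X * U)) := by
    intro X
    rw [hexp', show U * E * Uᴴ * X = U * (E * Uᴴ * X) by simp only [mul_assoc], trace_mul_comm]
    congr 1
    simp only [mul_assoc]
  have hmid : ∀ X Y : Matrix ι ι ℂ, Uᴴ * (X * Y) * U = (Uᴴ * X * U) * (Uᴴ * Y * U) := by
    intro X Y
    calc Uᴴ * (X * Y) * U = Uᴴ * X * 1 * (Y * U) := by simp only [mul_assoc, one_mul]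
      _ = Uᴴ * X * (U * Uᴴ) * (Y * U) := by rw [hU2]
      _ = _ := by simp only [mul_assoc]
  have hUK : Uᴴ * K * U = D := by
    rw [hKd]
    calc Uᴴ * (U * D * Uᴴ) * U = (Uᴴ * U) * D * (Uᴴ * U) := by simp only [mul_assoc]
      _ = D := by rw [hU1, one_mul, mul_one]
  have t1 : trace (exp (-K) * (Aᴴ * A)) =
      ((∑ i, ∑ j, Real.exp (-k i) * 1 * ‖Bᴴ i j‖ ^ 2 : ℝ) : ℂ) := by
    rw [conj_trace, hmid, ← hBH, ← hB, ← trace_diag_diag, ← one_diag, mul_one,
      conjTranspose_conjTranspose, mul_assoc, hE]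
  have t2 : trace (exp (-K) * (A * Aᴴ)) =
      ((∑ i, ∑ j, Real.exp (-k i) * 1 * ‖B i j‖ ^ 2 : ℝ) : ℂ) := by
    rw [conj_trace, hmid, ← hBH, ← hB, ← trace_diag_diag, ← one_diag, mul_one, mul_assoc, hE]
  have t3 : trace (exp (-K) * (A * K * Aᴴ)) =
      ((∑ i, ∑ j, Real.exp (-k i) * k j * ‖B i j‖ ^ 2 : ℝ) : ℂ) := by
    rw [conj_trace, hmid, hmid, hUK, ← hBH, ← hB, ← trace_diag_diag]
    simp only [mul_assoc, hE, hD]
  have t4 : trace (exp (-K) * (K * A * Aᴴ)) =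
      ((∑ i, ∑ j, (Real.exp (-k i) * k i) * 1 * ‖B i j‖ ^ 2 : ℝ) : ℂ) := by
    rw [conj_trace, hmid, hmid, hUK, ← hBH, ← hB, ← trace_diag_diag, ← one_diag, mul_one]
    rw [show (diagonal fun i => ((Real.exp (-k i) * k i : ℝ) : ℂ)) = E * D by
      rw [hE, hD, diagonal_mul_diagonal]; simp]
    simp only [mul_assoc]
  have t5 : trace (exp (-K) * (Aᴴ * (A * K))) =
      ((∑ i, ∑ j, (Real.exp (-k i) * k i) * 1 * ‖Bᴴ i j‖ ^ 2 : ℝ) : ℂ) := by
    rw [conj_trace, hmid, hmid, hUK, ← hBH, ← hB, ← trace_diag_diag, ← one_diag, mul_one,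
      conjTranspose_conjTranspose]
    rw [show (diagonal fun i => ((Real.exp (-k i) * k i : ℝ) : ℂ)) = D * E by
      rw [hE, hD, diagonal_mul_diagonal]; simp [mul_comm]]
    rw [show E * (Bᴴ * (B * D)) = (E * Bᴴ * B) * D by simp only [mul_assoc], trace_mul_comm]
    simp only [mul_assoc]
  have t6 : trace (exp (-K) * (Aᴴ * (K * A))) =
      ((∑ i, ∑ j, Real.exp (-k i) * k j * ‖Bᴴ i j‖ ^ 2 : ℝ) : ℂ) := by
    rw [conj_trace, hmid, hmid, hUK, ← hBH, ← hB, ← trace_diag_diag,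
      conjTranspose_conjTranspose]
    simp only [mul_assoc, hE, hD]
  have hsw : ∀ (F : ι → ι → ℝ), ∑ i, ∑ j, F i j * ‖Bᴴ i j‖ ^ 2 = ∑ i, ∑ j, F j i * ‖B i j‖ ^ 2 := by
    intro F
    rw [Finset.sum_comm]
    refine Finset.sum_congr rfl fun i _ => Finset.sum_congr rfl fun j _ => ?_
    rw [conjTranspose_apply, norm_star]
  refine ⟨fun p => Real.exp (-k p.2) * ‖B p.1 p.2‖ ^ 2, fun p => k p.2 - k p.1, ?_, ?_, ?_, ?_⟩
  · intro p; positivity
  · rw [t1, Complex.ofReal_re, hsw (fun i j => Real.exp (-k i) * 1), Fintype.sum_prod_type]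
    simp
  · rw [mul_sub, trace_sub, Complex.sub_re, t1, t2, Complex.ofReal_re, Complex.ofReal_re,
      hsw (fun i j => Real.exp (-k i) * 1), Fintype.sum_prod_type, ← Finset.sum_sub_distrib]
    refine Finset.sum_congr rfl fun i _ => ?_
    rw [← Finset.sum_sub_distrib]
    refine Finset.sum_congr rfl fun j _ => ?_
    have : Real.exp (-k i) = Real.exp (-k j) * Real.exp (k j - k i) := by
      rw [← Real.exp_add]; ring_nf
    simp only [mul_one]
    rw [this]; ring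
  · have hexpand : (A * K - K * A) * Aᴴ - Aᴴ * (A * K - K * A) =
        A * K * Aᴴ - K * A * Aᴴ - (Aᴴ * (A * K) - Aᴴ * (K * A)) := by
      rw [sub_mul, mul_sub]
    rw [hexpand, mul_sub, mul_sub, mul_sub, trace_sub, trace_sub, trace_sub, t3, t4, t5, t6]
    simp only [Complex.sub_re, Complex.ofReal_re]
    rw [hsw (fun i j => (Real.exp (-k i) * k i) * 1), hsw (fun i j => Real.exp (-k i) * k j),
      Fintype.sum_prod_type, ← Finset.sum_sub_distrib, ← Finset.sum_sub_distrib,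
      ← Finset.sum_sub_distrib]
    refine Finset.sum_congr rfl fun i _ => ?_
    rw [← Finset.sum_sub_distrib, ← Finset.sum_sub_distrib, ← Finset.sum_sub_distrib]
    refine Finset.sum_congr rfl fun j _ => ?_
    have : Real.exp (-k i) = Real.exp (-k j) * Real.exp (k j - k i) := by
      rw [← Real.exp_add]; ring_nf
    simp only [mul_one]
    rw [this]; ring

end Vale.Agent.P361
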