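import Vale.Agent.Lib.P361.Gibbs

open Matrix NormedSpace
open scoped ComplexConjugate

namespace Vale.Agent.P361

/-- tangent line inequality for `x ↦ x log (1 + x)` in exponential coordinates -/
theorem tangent_ineq (u s : ℝ) :
    s * (Real.exp s - 1) + (s + 1 - Real.exp (-s)) * (Real.exp u - Real.exp s) ≤
      u * (Real.exp u - 1) := by
  have h1 : 0 ≤ Real.exp (u - s) - 1 - (u - s) := by
    have := Real.add_one_le_exp (u - s); linarith
  have h2 : 0 ≤ (u - s) * Real.exp (u - s) - Real.exp (u - s) + 1 := by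
    have h := Real.add_one_le_exp (-(u - s))
    have h3 : Real.exp (u - s) * Real.exp (-(u - s)) = 1 := by
      rw [← Real.exp_add]; simp
    have h4 : 0 < Real.exp (u - s) := Real.exp_pos _
    nlinarith [mul_le_mul_of_nonneg_left h h4.le]
  have h3 : Real.exp u = Real.exp s * Real.exp (u - s) := by rw [← Real.exp_add]; ring_nf
  have h4 : Real.exp (-s) * Real.exp s = 1 := by rw [← Real.exp_add]; simp
  have h5 : 0 < Real.exp s := Real.exp_pos _
  have h6 := mul_nonneg h5.le h2
  have h8 : u * (Real.exp u - 1) - (s * (Real.exp s - 1) +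
      (s + 1 - Real.exp (-s)) * (Real.exp u - Real.exp s)) =
      Real.exp s * ((u - s) * Real.exp (u - s) - Real.exp (u - s) + 1) +
        (Real.exp (u - s) - 1 - (u - s)) := by
    rw [h3]
    linear_combination (Real.exp (u - s) - 1) * h4
  linarith

/-- Weighted form of the inequality of Roepstorff, Falk and Bruch. -/
theorem weighted_ineq {κ : Type*} (T : Finset κ) (w u : κ → ℝ) (hw : ∀ p ∈ T, 0 ≤ w p)
    (ha : 0 < ∑ p ∈ T, w p * (Real.exp (u p) - 1)) :
    (∑ p ∈ T, w p * (Real.exp (u p) - 1)) ≤ (∑ p ∈ T, w p) *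
      (Real.exp ((∑ p ∈ T, w p * (u p * (Real.exp (u p) - 1))) /
        (∑ p ∈ T, w p * (Real.exp (u p) - 1))) - 1) := by
  set a := ∑ p ∈ T, w p * (Real.exp (u p) - 1) with hadef
  set b := ∑ p ∈ T, w p * (u p * (Real.exp (u p) - 1)) with hbdef
  set c := ∑ p ∈ T, w p with hcdef
  have hc0 : 0 ≤ c := Finset.sum_nonneg hw
  have hc : 0 < c := by
    rcases hc0.lt_or_eq with h | h
    · exact h
    · exfalso
      have hz : ∀ p ∈ T, w p = 0 := (Finset.sum_eq_zero_iff_of_nonneg hw).1 h.symm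
      have : a = 0 := by
        rw [hadef]; exact Finset.sum_eq_zero fun p hp => by rw [hz p hp, zero_mul]
      linarith
  set s := Real.log (1 + a / c) with hs
  have h1 : 0 < 1 + a / c := by positivity
  have hes : Real.exp s = 1 + a / c := Real.exp_log h1
  have hces : c * Real.exp s = c + a := by rw [hes]; field_simp
  have key : s * a ≤ b := by
    have h2 : ∑ p ∈ T, w p * (s * (Real.exp s - 1) +
        (s + 1 - Real.exp (-s)) * (Real.exp (u p) - Real.exp s)) ≤ b :=
      Finset.sum_le_sum fun p hp => mul_le_mul_of_nonneg_left (tangent_ineq (u p) s) (hw p hp)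
    have h3 : ∑ p ∈ T, w p * (s * (Real.exp s - 1) +
        (s + 1 - Real.exp (-s)) * (Real.exp (u p) - Real.exp s)) =
        c * (s * (Real.exp s - 1)) + (s + 1 - Real.exp (-s)) * (a + c - c * Real.exp s) := by
      rw [hadef, hcdef, Finset.sum_mul, Finset.sum_mul, ← Finset.sum_add_distrib,
        ← Finset.sum_sub_distrib, Finset.mul_sum, ← Finset.sum_add_distrib]
      refine Finset.sum_congr rfl fun p _ => ?_
      ring
    rw [h3] at h2
    have h4 : a + c - c * Real.exp s = 0 := by rw [hces]; ring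
    rw [h4, mul_zero, add_zero] at h2
    have h5 : c * (s * (Real.exp s - 1)) = s * a := by
      have : c * (Real.exp s - 1) = a := by linarith
      calc c * (s * (Real.exp s - 1)) = s * (c * (Real.exp s - 1)) := by ring
        _ = s * a := by rw [this]
    linarith
  have h6 : s ≤ b / a := by rw [le_div_iff₀ ha]; exact key
  have h7 : 1 + a / c ≤ Real.exp (b / a) := by
    rw [← hes]; exact Real.exp_le_exp.2 h6
  have h8 : a / c ≤ Real.exp (b / a) - 1 := by linarith
  rw [div_le_iff₀ hc] at h8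
  linarith

variable {ι : Type*} [Fintype ι] [DecidableEq ι]

/-- The strengthened Bogoliubov inequality for a finite family of operators. -/
theorem roepstorff {κ : Type*} (T : Finset κ) {K : Matrix ι ι ℂ} (hK : K.IsHermitian)
    (A : κ → Matrix ι ι ℂ) (a b c : ℝ)
    (hc : c = ∑ α ∈ T, (trace (exp (-K) * ((A α)ᴴ * A α))).re)
    (ha : a = ∑ α ∈ T, (trace (exp (-K) * (A α * (A α)ᴴ - (A α)ᴴ * A α))).re)
    (hb : b = ∑ α ∈ T, (trace (exp (-K) * ((A α * K - K * A α) * (A α)ᴴ -
      (A α)ᴴ * (A α * K - K * A α)))).re)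
    (hpos : 0 < a) :
    a ≤ c * (Real.exp (b / a) - 1) := by
  choose w u hw hc' ha' hb' using fun α => exists_weights hK (A α)
  have e1 : c = ∑ p ∈ T ×ˢ (Finset.univ : Finset (ι × ι)), w p.1 p.2 := by
    rw [hc, Finset.sum_product]
    exact Finset.sum_congr rfl fun α _ => hc' α
  have e2 : a = ∑ p ∈ T ×ˢ (Finset.univ : Finset (ι × ι)),
      w p.1 p.2 * (Real.exp (u p.1 p.2) - 1) := by
    rw [ha, Finset.sum_product]
    exact Finset.sum_congr rfl fun α _ => ha' α
  have e3 : b = ∑ p ∈ T ×ˢ (Finset.univ : Finset (ι × ι)),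
      w p.1 p.2 * (u p.1 p.2 * (Real.exp (u p.1 p.2) - 1)) := by
    rw [hb, Finset.sum_product]
    exact Finset.sum_congr rfl fun α _ => hb' α
  rw [e2] at hpos
  rw [e1, e2, e3]
  exact weighted_ineq _ (fun p : κ × (ι × ι) => w p.1 p.2) (fun p => u p.1 p.2)
    (fun p _ => hw _ _) hpos

/-- geometric sum form -/
theorem geom_bound {a c x : ℝ} (ha : 0 ≤ a) (hx : 0 < x) (h : a ≤ c * (Real.exp x - 1)) (J : ℕ) :
    a * ∑ j ∈ Finset.range J, Real.exp (-((j + 1 : ℕ) * x)) ≤ c := by
  have h1 : ∀ j : ℕ, Real.exp (-((j + 1 : ℕ) * x)) = Real.exp (-x) * (Real.exp (-x)) ^ j := by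
    intro j
    rw [← Real.exp_nat_mul, ← Real.exp_add]
    congr 1
    push_cast; ring
  simp_rw [h1]
  rw [← Finset.mul_sum]
  have hq0 : 0 < Real.exp (-x) := Real.exp_pos _
  have hq1 : Real.exp (-x) < 1 := by rw [Real.exp_lt_one_iff]; linarith
  have hgs : (∑ j ∈ Finset.range J, Real.exp (-x) ^ j) ≤ 1 / (1 - Real.exp (-x)) := by
    rw [geom_sum_eq hq1.ne, le_div_iff₀ (by linarith)]
    have : (Real.exp (-x) ^ J - 1) / (Real.exp (-x) - 1) * (1 - Real.exp (-x)) =
        1 - Real.exp (-x) ^ J := by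
      have h0 : Real.exp (-x) - 1 ≠ 0 := by linarith
      field_simp
      ring
    rw [this]
    have := pow_nonneg hq0.le J
    linarith
  have h2 : Real.exp (-x) * Real.exp x = 1 := by rw [← Real.exp_add]; simp
  have h3 : a * Real.exp (-x) ≤ c * (1 - Real.exp (-x)) := by
    have := mul_le_mul_of_nonneg_right h hq0.le
    have h4 : c * (Real.exp x - 1) * Real.exp (-x) = c * (1 - Real.exp (-x)) := by
      calc c * (Real.exp x - 1) * Real.exp (-x) = c * (Real.exp (-x) * Real.exp x - Real.exp (-x)) := by ring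
        _ = _ := by rw [h2]
    linarith
  calc a * (Real.exp (-x) * ∑ j ∈ Finset.range J, Real.exp (-x) ^ j)
      ≤ a * (Real.exp (-x) * (1 / (1 - Real.exp (-x)))) := by gcongr
    _ = a * Real.exp (-x) / (1 - Real.exp (-x)) := by ring
    _ ≤ c := by rw [div_le_iff₀ (by linarith)]; exact h3

/-- double spectral sum -/
theorem klein {A B : Matrix ι ι ℂ} (hA : A.IsHermitian) (hB : B.IsHermitian) :
    (trace (exp A)).re + (trace ((B - A) * exp A)).re ≤ (trace (exp B)).re := by
  obtain ⟨U, k, hU1, hU2, hKd, hexp⟩ := exists_diag hA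
  obtain ⟨V, l, hV1, hV2, hLd, hexp'⟩ := exists_diag hB
  have hexpA : exp A = U * diagonal (fun i => ((Real.exp (k i) : ℝ) : ℂ)) * Uᴴ := by
    simpa using hexp 1
  have hexpB : exp B = V * diagonal (fun i => ((Real.exp (l i) : ℝ) : ℂ)) * Vᴴ := by
    simpa using hexp' 1
  obtain ⟨W, hW⟩ : ∃ W, W = Uᴴ * V := ⟨_, rfl⟩
  have hWH : Wᴴ = Vᴴ * U := by rw [hW]; simp [conjTranspose_mul]
  have hW1 : Wᴴ * W = 1 := by
    rw [hWH, hW]
    calc Vᴴ * U * (Uᴴ * V) = Vᴴ * (U * Uᴴ) * V := by simp only [mul_assoc]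
      _ = 1 := by rw [hU2, mul_one, hV1]
  have hW2 : W * Wᴴ = 1 := by
    rw [hWH, hW]
    calc Uᴴ * V * (Vᴴ * U) = Uᴴ * (V * Vᴴ) * U := by simp only [mul_assoc]
      _ = 1 := by rw [hV2, mul_one, hU1]
  have one_diag : (1 : Matrix ι ι ℂ) = diagonal (fun _ => ((1 : ℝ) : ℂ)) := by
    simp [← diagonal_one]
  have key : ∀ f g : ι → ℝ, trace ((U * diagonal (fun i => (f i : ℂ)) * Uᴴ) *
      (V * diagonal (fun i => (g i : ℂ)) * Vᴴ)) =
      ((∑ i, ∑ j, f i * g j * ‖W i j‖ ^ 2 : ℝ) : ℂ) := by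
    intro f g
    rw [← trace_diag_diag, hWH, hW]
    calc trace ((U * diagonal (fun i => (f i : ℂ)) * Uᴴ) * (V * diagonal (fun i => (g i : ℂ)) * Vᴴ))
        = trace (U * (diagonal (fun i => (f i : ℂ)) * Uᴴ * (V * diagonal (fun i => (g i : ℂ)) * Vᴴ))) := by
          simp only [mul_assoc]
      _ = _ := by
          rw [trace_mul_comm]
          simp only [mul_assoc]
  have hV1' : V * diagonal (fun _ => ((1 : ℝ) : ℂ)) * Vᴴ = 1 := by
    rw [← one_diag, mul_one, hV2]
  have hU1' : U * diagonal (fun _ => ((1 : ℝ) : ℂ)) * Uᴴ = 1 := by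
    rw [← one_diag, mul_one, hU2]
  have t1 : trace (exp A) = ((∑ i, ∑ j, Real.exp (k i) * 1 * ‖W i j‖ ^ 2 : ℝ) : ℂ) := by
    have := key (fun i => Real.exp (k i)) (fun _ => 1)
    rw [hV1', mul_one] at this
    rw [hexpA]; exact this
  have t2 : trace (exp B) = ((∑ i, ∑ j, 1 * Real.exp (l j) * ‖W i j‖ ^ 2 : ℝ) : ℂ) := by
    have := key (fun _ => 1) (fun i => Real.exp (l i))
    rw [hU1', one_mul] at this
    rw [hexpB]; exact this
  have t3 : trace (B * exp A) = ((∑ i, ∑ j, Real.exp (k i) * l j * ‖W i j‖ ^ 2 : ℝ) : ℂ) := by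
    have := key (fun i => Real.exp (k i)) l
    rw [← hexpA, ← hLd] at this
    rw [trace_mul_comm]; exact this
  have t4 : trace (A * exp A) =
      ((∑ i, ∑ j, (k i * Real.exp (k i)) * 1 * ‖W i j‖ ^ 2 : ℝ) : ℂ) := by
    have := key (fun i => k i * Real.exp (k i)) (fun _ => 1)
    rw [hV1', mul_one] at this
    rw [← this]
    congr 1
    conv_lhs => rw [hexpA]
    nth_rewrite 1 [hKd]
    calc U * diagonal (fun i => (k i : ℂ)) * Uᴴ *
          (U * diagonal (fun i => ((Real.exp (k i) : ℝ) : ℂ)) * Uᴴ)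
        = U * diagonal (fun i => (k i : ℂ)) * (Uᴴ * U) *
          diagonal (fun i => ((Real.exp (k i) : ℝ) : ℂ)) * Uᴴ := by simp only [mul_assoc]
      _ = U * (diagonal (fun i => (k i : ℂ)) *
          diagonal (fun i => ((Real.exp (k i) : ℝ) : ℂ))) * Uᴴ := by
          rw [hU1, mul_one]; simp only [mul_assoc]
      _ = _ := by
          rw [diagonal_mul_diagonal]
          simp
  rw [sub_mul, trace_sub, Complex.sub_re, t1, t2, t3, t4]
  simp only [Complex.ofReal_re]
  rw [← Finset.sum_sub_distrib, ← Finset.sum_add_distrib]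
  refine Finset.sum_le_sum fun i _ => ?_
  rw [← Finset.sum_sub_distrib, ← Finset.sum_add_distrib]
  refine Finset.sum_le_sum fun j _ => ?_
  have h1 : Real.exp (k i) * (1 + (l j - k i)) ≤ Real.exp (l j) := by
    have h2 := Real.add_one_le_exp (l j - k i)
    have h3 : Real.exp (l j) = Real.exp (k i) * Real.exp (l j - k i) := by
      rw [← Real.exp_add]; ring_nf
    rw [h3]
    exact mul_le_mul_of_nonneg_left (by linarith) (Real.exp_pos _).le
  have h4 : 0 ≤ ‖W i j‖ ^ 2 := by positivity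
  nlinarith [mul_le_mul_of_nonneg_right h1 h4]

end Vale.Agent.P361
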