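import Mathlib

open Filter Topology

namespace Vale.Agent.P361

/-- Hyers: an almost additive sequence is at bounded distance from a linear one. -/
theorem hyers (f : ℕ → ℝ) (D : ℝ) (hf : ∀ a b, |f (a + b) - f a - f b| ≤ D) :
    ∃ μ : ℝ, (∀ a, |f a - a * μ| ≤ D) ∧ Tendsto (fun a : ℕ => f a / a) atTop (𝓝 μ) := by
  have hD : 0 ≤ D := (abs_nonneg _).trans (hf 0 0)
  have h0 : |f 0| ≤ D := by
    have := hf 0 0
    simpa using this
  have hb : ∀ a : ℕ, |f a| ≤ D + a * (|f 1| + D) := by
    intro a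
    induction a with
    | zero => simpa using h0
    | succ k ih =>
      have h1 := hf k 1
      have h2 : |f (k + 1)| ≤ |f (k + 1) - f k - f 1| + |f k| + |f 1| := by
        have : f (k + 1) = (f (k + 1) - f k - f 1) + f k + f 1 := by ring
        calc |f (k + 1)| = |(f (k + 1) - f k - f 1) + f k + f 1| := by rw [← this]
          _ ≤ _ := (abs_add_le _ _).trans (add_le_add_left (abs_add_le _ _) _)
      push_cast
      linarith
  have hsub1 : Subadditive fun a => f a + D := by
    intro a b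
    have := (abs_le.1 (hf a b)).2
    simp only
    linarith
  have hsub2 : Subadditive fun a => -f a + D := by
    intro a b
    have := (abs_le.1 (hf a b)).1
    simp only
    linarith
  have hbd : ∀ g : ℕ → ℝ, (∀ a : ℕ, -(D + a * (|f 1| + D)) ≤ g a) →
      BddBelow (Set.range fun a : ℕ => g a / a) := by
    intro g hg
    refine ⟨-(D + (|f 1| + D)), ?_⟩
    rintro _ ⟨a, rfl⟩
    simp only
    rcases Nat.eq_zero_or_pos a with h | h
    · subst h
      simp only [Nat.cast_zero, div_zero]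
      have := abs_nonneg (f 1)
      linarith
    · have ha : (1 : ℝ) ≤ a := by exact_mod_cast h
      rw [le_div_iff₀ (by linarith)]
      refine le_trans ?_ (hg a)
      nlinarith
  have hbd1 : BddBelow (Set.range fun a : ℕ => (f a + D) / a) := by
    apply hbd
    intro a
    have := (abs_le.1 (hb a)).1
    linarith
  have hbd2 : BddBelow (Set.range fun a : ℕ => (-f a + D) / a) := by
    apply hbd
    intro a
    have := (abs_le.1 (hb a)).2
    linarith
  have ht1 := hsub1.tendsto_lim hbd1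
  have ht2 := hsub2.tendsto_lim hbd2
  have hDa : Tendsto (fun a : ℕ => D / (a : ℝ)) atTop (𝓝 0) := tendsto_const_div_atTop_nhds_zero_nat D
  have ht1' : Tendsto (fun a : ℕ => f a / a) atTop (𝓝 hsub1.lim) := by
    have := ht1.sub hDa
    rw [sub_zero] at this
    refine this.congr fun a => ?_
    ring
  have ht2' : Tendsto (fun a : ℕ => f a / a) atTop (𝓝 (-hsub2.lim)) := by
    have := (ht2.sub hDa).neg
    rw [sub_zero] at this
    refine this.congr fun a => ?_
    ring
  have heq : hsub1.lim = -hsub2.lim := tendsto_nhds_unique ht1' ht2'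
  refine ⟨hsub1.lim, ?_, ht1'⟩
  intro a
  rcases Nat.eq_zero_or_pos a with h | h
  · subst h; simpa using h0
  · have ha : (0 : ℝ) < a := by exact_mod_cast h
    have h1 := hsub1.lim_le_div hbd1 h.ne'
    have h2 := hsub2.lim_le_div hbd2 h.ne'
    rw [le_div_iff₀ ha] at h1 h2
    rw [abs_le]
    constructor
    · linarith
    · rw [heq]; linarith

/-- Almost additive functions of boxes have a bulk limit. -/
theorem box_limit (A : ℕ → ℕ → ℕ → ℝ) (C : ℝ)
    (h1 : ∀ a a' b c, |A (a + a') b c - A a b c - A a' b c| ≤ C * (b * c))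
    (h2 : ∀ a b b' c, |A a (b + b') c - A a b c - A a b' c| ≤ C * (a * c))
    (h3 : ∀ a b c c', |A a b (c + c') - A a b c - A a b c'| ≤ C * (a * b)) :
    ∃ μ : ℝ, ∀ a b c : ℕ, |A a b c - a * b * c * μ| ≤ C * (b * c + a * c + a * b) := by
  choose μ1 hμ1 hμ1' using fun b c : ℕ => hyers (fun a => A a b c) (C * (b * c))
    (fun a a' => h1 a a' b c)
  have hμ1b : ∀ b b' c : ℕ, |μ1 (b + b') c - μ1 b c - μ1 b' c| ≤ C * c := by
    intro b b' c
    have ht : Tendsto (fun a : ℕ => |A a (b + b') c / a - A a b c / a - A a b' c / a|) atTop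
        (𝓝 |μ1 (b + b') c - μ1 b c - μ1 b' c|) :=
      (((hμ1' (b + b') c).sub (hμ1' b c)).sub (hμ1' b' c)).abs
    refine le_of_tendsto ht ?_
    filter_upwards [eventually_gt_atTop 0] with a ha
    have ha' : (0 : ℝ) < a := by exact_mod_cast ha
    rw [← sub_div, ← sub_div, abs_div, abs_of_pos ha', div_le_iff₀ ha']
    refine (h2 a b b' c).trans (le_of_eq ?_)
    ring
  have hμ1c : ∀ b c c' : ℕ, |μ1 b (c + c') - μ1 b c - μ1 b c'| ≤ C * b := by
    intro b c c'
    have ht : Tendsto (fun a : ℕ => |A a b (c + c') / a - A a b c / a - A a b c' / a|) atTop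
        (𝓝 |μ1 b (c + c') - μ1 b c - μ1 b c'|) :=
      (((hμ1' b (c + c')).sub (hμ1' b c)).sub (hμ1' b c')).abs
    refine le_of_tendsto ht ?_
    filter_upwards [eventually_gt_atTop 0] with a ha
    have ha' : (0 : ℝ) < a := by exact_mod_cast ha
    rw [← sub_div, ← sub_div, abs_div, abs_of_pos ha', div_le_iff₀ ha']
    refine (h3 a b c c').trans (le_of_eq ?_)
    ring
  choose μ2 hμ2 hμ2' using fun c : ℕ => hyers (fun b => μ1 b c) (C * c)
    (fun b b' => hμ1b b b' c)
  have hμ2c : ∀ c c' : ℕ, |μ2 (c + c') - μ2 c - μ2 c'| ≤ C := by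
    intro c c'
    have ht : Tendsto (fun b : ℕ => |μ1 b (c + c') / b - μ1 b c / b - μ1 b c' / b|) atTop
        (𝓝 |μ2 (c + c') - μ2 c - μ2 c'|) :=
      (((hμ2' (c + c')).sub (hμ2' c)).sub (hμ2' c')).abs
    refine le_of_tendsto ht ?_
    filter_upwards [eventually_gt_atTop 0] with b hb
    have hb' : (0 : ℝ) < b := by exact_mod_cast hb
    rw [← sub_div, ← sub_div, abs_div, abs_of_pos hb', div_le_iff₀ hb']
    exact hμ1c b c c'
  obtain ⟨μ, hμ, -⟩ := hyers μ2 C hμ2c
  refine ⟨μ, fun a b c => ?_⟩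
  have e1 := hμ1 b c a
  have e2 := hμ2 c b
  have e3 := hμ c
  have ha : (0 : ℝ) ≤ a := Nat.cast_nonneg a
  have hb : (0 : ℝ) ≤ b := Nat.cast_nonneg b
  have hid : A a b c - a * b * c * μ = (A a b c - a * μ1 b c) + a * (μ1 b c - b * μ2 c) +
      a * b * (μ2 c - c * μ) := by ring
  rw [hid]
  calc |(A a b c - a * μ1 b c) + a * (μ1 b c - b * μ2 c) + a * b * (μ2 c - c * μ)|
      ≤ |A a b c - a * μ1 b c| + |a * (μ1 b c - b * μ2 c)| + |a * b * (μ2 c - c * μ)| :=
        (abs_add_le _ _).trans (add_le_add_left (abs_add_le _ _) _)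
    _ ≤ C * (b * c) + a * (C * c) + a * b * C := by
        rw [abs_mul, abs_mul, abs_of_nonneg ha, abs_of_nonneg (mul_nonneg ha hb)]
        gcongr
    _ = _ := by ring

end Vale.Agent.P361
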