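import Vale.Agent.Lib.P361.Press

open Matrix NormedSpace
open scoped Kronecker

namespace Vale.Agent.P361

section Gen

variable {m n : Type*} [Fintype m] [DecidableEq m] [Fintype n] [DecidableEq n]

set_option backward.isDefEq.respectTransparency false in
theorem exp_ringHom (f : Matrix m m ℂ →ₐ[ℂ] Matrix n n ℂ) (X : Matrix m m ℂ) :
    f (exp X) = exp (f X) := by
  have hf : Continuous f := f.toLinearMap.continuous_of_finiteDimensional
  open scoped Norms.Operator in exact map_exp f hf X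

theorem exp_submatrix (e : m ≃ n) (X : Matrix m m ℂ) :
    (exp X).submatrix e.symm e.symm = exp (X.submatrix e.symm e.symm) :=
  exp_ringHom (Matrix.reindexAlgEquiv ℂ ℂ e : Matrix m m ℂ ≃ₐ[ℂ] Matrix n n ℂ).toAlgHom X

theorem trace_exp_submatrix (e : m ≃ n) (X : Matrix m m ℂ) :
    trace (exp (X.submatrix e.symm e.symm)) = trace (exp X) := by
  rw [← exp_submatrix, trace, trace]
  exact Fintype.sum_equiv e.symm _ _ fun i => rfl

/-- `X ↦ X ⊗ 1` as an algebra homomorphism -/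
noncomputable def kronLeft (m n : Type*) [Fintype m] [DecidableEq m] [Fintype n] [DecidableEq n] :
    Matrix m m ℂ →ₐ[ℂ] Matrix (m × n) (m × n) ℂ :=
  AlgHom.ofLinearMap
    { toFun := fun X => X ⊗ₖ (1 : Matrix n n ℂ)
      map_add' := fun X Y => add_kronecker _ _ _
      map_smul' := fun c X => smul_kronecker _ _ _ }
    (by simp) (fun X Y => by
      change (X * Y) ⊗ₖ (1 : Matrix n n ℂ) = X ⊗ₖ (1 : Matrix n n ℂ) * Y ⊗ₖ (1 : Matrix n n ℂ)
      rw [← mul_kronecker_mul, one_mul])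

noncomputable def kronRight (m n : Type*) [Fintype m] [DecidableEq m] [Fintype n] [DecidableEq n] :
    Matrix n n ℂ →ₐ[ℂ] Matrix (m × n) (m × n) ℂ :=
  AlgHom.ofLinearMap
    { toFun := fun X => (1 : Matrix m m ℂ) ⊗ₖ X
      map_add' := fun X Y => kronecker_add _ _ _
      map_smul' := fun c X => kronecker_smul _ _ _ }
    (by simp) (fun X Y => by
      change (1 : Matrix m m ℂ) ⊗ₖ (X * Y) = (1 : Matrix m m ℂ) ⊗ₖ X * (1 : Matrix m m ℂ) ⊗ₖ Y
      rw [← mul_kronecker_mul, one_mul])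

theorem trace_exp_kron (X : Matrix m m ℂ) (Y : Matrix n n ℂ) :
    trace (exp (X ⊗ₖ (1 : Matrix n n ℂ) + (1 : Matrix m m ℂ) ⊗ₖ Y)) =
      trace (exp X) * trace (exp Y) := by
  have hc : Commute (X ⊗ₖ (1 : Matrix n n ℂ)) ((1 : Matrix m m ℂ) ⊗ₖ Y) := by
    rw [Commute, SemiconjBy, ← mul_kronecker_mul, ← mul_kronecker_mul, one_mul, one_mul,
      mul_one, mul_one]
  have h1 : exp (X ⊗ₖ (1 : Matrix n n ℂ)) = (exp X) ⊗ₖ (1 : Matrix n n ℂ) :=
    (exp_ringHom (kronLeft m n) X).symm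
  have h2 : exp ((1 : Matrix m m ℂ) ⊗ₖ Y) = (1 : Matrix m m ℂ) ⊗ₖ (exp Y) :=
    (exp_ringHom (kronRight m n) Y).symm
  rw [Matrix.exp_add_of_commute _ _ hc, h1, h2, ← mul_kronecker_mul, one_mul, mul_one,
    trace_kronecker]

end Gen

end Vale.Agent.P361
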