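import Vale.Agent.Lib.P361.Boxes
import Vale.Agent.Lib.P361.Hyers

open Matrix NormedSpace Filter Topology

namespace Vale.Agent.P361

noncomputable def bx (L : Fin 3 → ℕ) : Finset (Fin 3 → ℤ) :=
  Fintype.piFinset (fun i => Finset.Ico (0 : ℤ) (L i))

theorem mem_bx {L : Fin 3 → ℕ} {x : Fin 3 → ℤ} : x ∈ bx L ↔ ∀ i, 0 ≤ x i ∧ x i < L i := by
  simp [bx, Fintype.mem_piFinset]

theorem filter_lt (L : Fin 3 → ℕ) (i : Fin 3) (a : ℕ) (ha : a ≤ L i) :
    (bx L).filter (fun x : Fin 3 → ℤ => x i < (a : ℤ)) = bx (Function.update L i a) := by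
  ext x
  rw [Finset.mem_filter, mem_bx, mem_bx]
  constructor
  · rintro ⟨h1, h2⟩ j
    by_cases hj : j = i
    · subst hj
      rw [Function.update_self]
      exact ⟨(h1 j).1, h2⟩
    · rw [Function.update_of_ne hj]
      exact h1 j
  · intro h
    have hi := h i
    rw [Function.update_self] at hi
    refine ⟨fun j => ?_, hi.2⟩
    by_cases hj : j = i
    · subst hj
      exact ⟨hi.1, by omega⟩
    · have := h j
      rwa [Function.update_of_ne hj] at this

theorem card_cut (L : Fin 3 → ℕ) (i : Fin 3) (a : ℕ) :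
    (cut (bx L) (fun x : Fin 3 → ℤ => x i < (a : ℤ))).card ≤ ∏ j, (if j = i then 1 else L j) := by
  have h1 : (Fintype.piFinset (fun j => if j = i then ({(a : ℤ) - 1} : Finset ℤ)
      else Finset.Ico (0 : ℤ) (L j))).card = ∏ j, (if j = i then 1 else L j) := by
    rw [Fintype.card_piFinset]
    refine Finset.prod_congr rfl fun j _ => ?_
    split_ifs
    · simp
    · simp
  rw [← h1]
  have key : ∀ e ∈ cut (bx L) (fun x : Fin 3 → ℤ => x i < (a : ℤ)),
      (e.2 : Fin 3 → ℤ) = (e.1 : Fin 3 → ℤ) + Pi.single i 1 ∧ (e.1 : Fin 3 → ℤ) i = a - 1 := by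
    intro e he
    simp only [cut, Finset.mem_filter] at he
    obtain ⟨he1, he2⟩ := he
    rw [mem_bonds] at he1
    obtain ⟨j, hj⟩ := he1
    have hji : j = i := by
      by_contra hne
      apply he2
      have : (e.2 : Fin 3 → ℤ) i = (e.1 : Fin 3 → ℤ) i := by
        rw [hj, Pi.add_apply, Pi.single_eq_of_ne (Ne.symm hne), add_zero]
      rw [this]
    subst hji
    refine ⟨hj, ?_⟩
    have h2 : (e.2 : Fin 3 → ℤ) j = (e.1 : Fin 3 → ℤ) j + 1 := by
      rw [hj, Pi.add_apply, Pi.single_eq_same]
    rw [h2] at he2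
    omega
  apply Finset.card_le_card_of_injOn (fun e => (e.1 : Fin 3 → ℤ))
  · intro e he
    have hk := key e he
    simp only [Finset.mem_coe, Fintype.mem_piFinset]
    intro j
    split_ifs with hj
    · subst hj
      rw [Finset.mem_singleton]; exact hk.2
    · have := mem_bx.1 e.1.2 j
      rw [Finset.mem_Ico]; exact this
  · intro e he e' he' heq
    have hk := key e he
    have hk' := key e' he'
    simp only at heq
    have h2 : (e.2 : Fin 3 → ℤ) = (e'.2 : Fin 3 → ℤ) := by rw [hk.1, hk'.1, heq]
    exact Prod.ext (Subtype.ext heq) (Subtype.ext h2)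

theorem split_box (n : ℕ) {β : ℝ} (hβ : 0 ≤ β) (h : ℝ) (L : Fin 3 → ℕ) (i : Fin 3) (a b : ℕ)
    (hL : L i = a + b) :
    |logP n β h (bx L) - logP n β h (bx (Function.update L i a)) -
      logP n β h (bx (Function.update L i b))| ≤
      β * ((n : ℝ) / 2 * ((n : ℝ) / 2 + 1)) * ((∏ j, (if j = i then 1 else L j) : ℕ) : ℝ) := by
  have h1 := near_additive n hβ h (bx L) (fun x : Fin 3 → ℤ => x i < (a : ℤ))
  rw [filter_lt L i a (by omega)] at h1
  have h2 : logP n β h ((bx L).filter fun x : Fin 3 → ℤ => ¬ x i < (a : ℤ)) =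
      logP n β h (bx (Function.update L i b)) := by
    apply logP_translate n β h _ _ (Pi.single i (a : ℤ))
    intro x
    rw [Finset.mem_filter, mem_bx, mem_bx]
    constructor
    · intro hx
      refine ⟨fun j => ?_, ?_⟩
      · by_cases hj : j = i
        · subst hj
          have := hx j
          rw [Function.update_self] at this
          rw [Pi.add_apply, Pi.single_eq_same]
          omega
        · have := hx j
          rw [Function.update_of_ne hj] at this
          rw [Pi.add_apply, Pi.single_eq_of_ne hj]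
          omega
      · have := hx i
        rw [Function.update_self] at this
        rw [Pi.add_apply, Pi.single_eq_same]
        omega
    · rintro ⟨hx1, hx2⟩ j
      have := hx1 j
      by_cases hj : j = i
      · subst hj
        rw [Function.update_self]
        rw [Pi.add_apply, Pi.single_eq_same] at this hx2
        omega
      · rw [Function.update_of_ne hj]
        rw [Pi.add_apply, Pi.single_eq_of_ne hj] at this
        omega
  rw [h2] at h1
  refine h1.trans ?_
  apply mul_le_mul_of_nonneg_left _ (by positivity)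
  exact_mod_cast card_cut L i a

theorem bulk (n : ℕ) {β : ℝ} (hβ : 0 ≤ β) (h : ℝ) : ∃ μ : ℝ, ∀ a b c : ℕ,
    |logP n β h (bx ![a, b, c]) - a * b * c * μ| ≤
      β * ((n : ℝ) / 2 * ((n : ℝ) / 2 + 1)) * (b * c + a * c + a * b) := by
  apply box_limit (fun a b c => logP n β h (bx ![a, b, c]))
  · intro a a' b c
    have h1 := split_box n hβ h ![a + a', b, c] 0 a a' rfl
    have e1 : Function.update ![a + a', b, c] 0 a = ![a, b, c] := by
      ext j; fin_cases j <;> rfl
    have e2 : Function.update ![a + a', b, c] 0 a' = ![a', b, c] := by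
      ext j; fin_cases j <;> rfl
    rw [e1, e2] at h1
    refine h1.trans (le_of_eq ?_)
    congr 1
    rw [Fin.prod_univ_three]
    simp
  · intro a b b' c
    have h1 := split_box n hβ h ![a, b + b', c] 1 b b' rfl
    have e1 : Function.update ![a, b + b', c] 1 b = ![a, b, c] := by
      ext j; fin_cases j <;> rfl
    have e2 : Function.update ![a, b + b', c] 1 b' = ![a, b', c] := by
      ext j; fin_cases j <;> rfl
    rw [e1, e2] at h1
    refine h1.trans (le_of_eq ?_)
    congr 1
    rw [Fin.prod_univ_three]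
    simp
  · intro a b c c'
    have h1 := split_box n hβ h ![a, b, c + c'] 2 c c' rfl
    have e1 : Function.update ![a, b, c + c'] 2 c = ![a, b, c] := by
      ext j; fin_cases j <;> rfl
    have e2 : Function.update ![a, b, c + c'] 2 c' = ![a, b, c'] := by
      ext j; fin_cases j <;> rfl
    rw [e1, e2] at h1
    refine h1.trans (le_of_eq ?_)
    congr 1
    rw [Fin.prod_univ_three]
    simp

theorem card_box (N : ℕ) : (box N).card = (2 * N + 1) ^ 3 := by
  rw [box, Pi.card_Icc]
  simp only [Int.card_Icc, Finset.prod_const, Finset.card_univ, Fintype.card_fin]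
  congr 1
  omega

theorem logP_box (n : ℕ) (β h : ℝ) (N : ℕ) :
    logP n β h (box N) = logP n β h (bx ![2 * N + 1, 2 * N + 1, 2 * N + 1]) := by
  symm
  apply logP_translate n β h _ _ (fun _ => (N : ℤ))
  intro x
  rw [mem_bx, box, Finset.mem_Icc, Pi.le_def, Pi.le_def]
  constructor
  · rintro ⟨h1, h2⟩ j
    have a1 := h1 j
    have a2 := h2 j
    have : (![2 * N + 1, 2 * N + 1, 2 * N + 1] : Fin 3 → ℕ) j = 2 * N + 1 := by
      fin_cases j <;> rfl
    rw [this, Pi.add_apply]
    push_cast
    constructor <;> linarith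
  · intro hx
    have : ∀ j, (![2 * N + 1, 2 * N + 1, 2 * N + 1] : Fin 3 → ℕ) j = 2 * N + 1 := by
      intro j; fin_cases j <;> rfl
    constructor
    · intro j
      have := (hx j).1
      rw [Pi.add_apply] at this
      linarith
    · intro j
      have h2 := (hx j).2
      rw [Pi.add_apply, this] at h2
      push_cast at h2
      linarith

/-- Existence of the thermodynamic limit of the pressure. -/
theorem tendsto_pressure (n : ℕ) {β : ℝ} (hβ : 0 < β) (h : ℝ) :
    Tendsto (fun N : ℕ => finitePressure n β h (box N)) atTop (𝓝 (pressure n β h)) := by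
  obtain ⟨μ, hμ⟩ := bulk n hβ.le h
  have key : Tendsto (fun N : ℕ => finitePressure n β h (box N)) atTop (𝓝 (μ / β)) := by
    set C := β * ((n : ℝ) / 2 * ((n : ℝ) / 2 + 1)) with hC
    rw [tendsto_iff_norm_sub_tendsto_zero]
    have hb : Tendsto (fun N : ℕ => 3 * C / β * (1 / ((N : ℝ) + 1))) atTop (𝓝 0) := by
      have := (tendsto_one_div_add_atTop_nhds_zero_nat (𝕜 := ℝ)).const_mul (3 * C / β)
      rwa [mul_zero] at this
    refine squeeze_zero (fun _ => norm_nonneg _) (fun N => ?_) hb
    rw [finitePressure_eq, card_box]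
    change ‖1 / (β * (((2 * N + 1) ^ 3 : ℕ) : ℝ)) * logP n β h (box N) - μ / β‖ ≤ _
    rw [logP_box]
    have h1 := hμ (2 * N + 1) (2 * N + 1) (2 * N + 1)
    set K : ℝ := ((2 * N + 1 : ℕ) : ℝ) with hK
    have hKpos : 0 < K := by rw [hK]; positivity
    have hKN : (N : ℝ) + 1 ≤ K := by rw [hK]; push_cast; linarith [(Nat.cast_nonneg N : (0:ℝ) ≤ N)]
    have hC0 : 0 ≤ C := by rw [hC]; positivity
    rw [show (((2 * N + 1) ^ 3 : ℕ) : ℝ) = K ^ 3 by rw [hK]; push_cast; ring]
    set X := logP n β h (bx ![2 * N + 1, 2 * N + 1, 2 * N + 1])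
    have h2 : 1 / (β * K ^ 3) * X - μ / β = (X - K * K * K * μ) / (β * K ^ 3) := by
      field_simp
    rw [h2, Real.norm_eq_abs, abs_div, abs_of_pos (show 0 < β * K ^ 3 by positivity),
      div_le_iff₀ (by positivity)]
    refine h1.trans ?_
    have h3 : 3 * C / β * (1 / ((N : ℝ) + 1)) * (β * K ^ 3) = 3 * C * K ^ 2 * (K / ((N : ℝ) + 1)) := by
      field_simp
    rw [h3]
    have h4 : 1 ≤ K / ((N : ℝ) + 1) := by
      rw [le_div_iff₀ (by positivity)]; linarith
    have h5 : C * (K * K + K * K + K * K) = 3 * C * K ^ 2 * 1 := by ring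
    rw [h5]
    exact mul_le_mul_of_nonneg_left h4 (by positivity)
  have : pressure n β h = μ / β := key.limUnder_eq
  rw [this]
  exact key

theorem box_nonempty (N : ℕ) : (box N).Nonempty := by
  rw [← Finset.card_pos, card_box]; positivity

theorem pressure_convex (n : ℕ) {β : ℝ} (hβ : 0 < β) :
    ConvexOn ℝ Set.univ (fun h => pressure n β h) := by
  refine ⟨convex_univ, ?_⟩
  intro x _ y _ a b ha hb hab
  have h1 := tendsto_pressure n hβ (a • x + b • y)
  have h2 := ((tendsto_pressure n hβ x).const_mul a).add ((tendsto_pressure n hβ y).const_mul b)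
  refine le_of_tendsto_of_tendsto' h1 h2 fun N => ?_
  exact (finitePressure_convex n hβ (box N) (box_nonempty N)).2 (Set.mem_univ x) (Set.mem_univ y)
    ha hb hab

/-- The spontaneous magnetization is a genuine right derivative. -/
theorem hasDeriv_pressure (n : ℕ) {β : ℝ} (hβ : 0 < β) :
    HasDerivWithinAt (fun h => pressure n β h) (spontaneousMagnetization n β) (Set.Ioi 0) 0 :=
  (pressure_convex n hβ).hasDerivWithinAt_rightDeriv_of_mem_interior (by simp)

end Vale.Agent.P361
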