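import Vale.Agent.Lib.P361.Comm

open Matrix
open scoped ComplexOrder

namespace Vale.Agent.P361

variable {V : Type*} [DecidableEq V] [Fintype V]

noncomputable def Zop (n : ℕ) (x : V) : Matrix (V → Fin (n + 1)) (V → Fin (n + 1)) ℂ :=
  siteOp x (spinZ n)
noncomputable def Pop (n : ℕ) (x : V) : Matrix (V → Fin (n + 1)) (V → Fin (n + 1)) ℂ :=
  siteOp x (spinPlus n)
noncomputable def Mop (n : ℕ) (x : V) : Matrix (V → Fin (n + 1)) (V → Fin (n + 1)) ℂ :=
  siteOp x (spinPlus n)ᴴ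
noncomputable def dot (n : ℕ) (x y : V) : Matrix (V → Fin (n + 1)) (V → Fin (n + 1)) ℂ :=
  ∑ a : Fin 3, siteOp x (spin n a) * siteOp y (spin n a)

theorem dot_def (n : ℕ) (x y : V) : dot n x y = Zop n x * Zop n y +
    (1 / 2 : ℂ) • (Pop n x * Mop n y + Mop n x * Pop n y) := dot_eq n

theorem Zop_conjTranspose (n : ℕ) (x : V) : (Zop n x)ᴴ = Zop n x := by
  rw [Zop, siteOp_conjTranspose, spinZ_conjTranspose]
theorem Pop_conjTranspose (n : ℕ) (x : V) : (Pop n x)ᴴ = Mop n x := by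
  rw [Pop, siteOp_conjTranspose, Mop]
theorem Mop_conjTranspose (n : ℕ) (x : V) : (Mop n x)ᴴ = Pop n x := by
  rw [Mop, siteOp_conjTranspose, conjTranspose_conjTranspose, Pop]

theorem ZP (n : ℕ) (x : V) : Zop n x * Pop n x = Pop n x * Zop n x + Pop n x := by
  rw [Zop, Pop, ← siteOp_mul, ← siteOp_mul, ← siteOp_add]
  congr 1
  exact sub_eq_iff_eq_add'.1 (comm_z_plus n)

theorem ZM (n : ℕ) (x : V) : Zop n x * Mop n x = Mop n x * Zop n x - Mop n x := by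
  rw [Zop, Mop, ← siteOp_mul, ← siteOp_mul, ← siteOp_sub]
  congr 1
  rw [sub_eq_neg_add, ← sub_eq_iff_eq_add]
  exact comm_z_minus n

theorem PM (n : ℕ) (x : V) : Pop n x * Mop n x = Mop n x * Pop n x + (2 : ℂ) • Zop n x := by
  rw [Zop, Mop, Pop, ← siteOp_mul, ← siteOp_mul, ← siteOp_smul, ← siteOp_add]
  congr 1
  exact sub_eq_iff_eq_add'.1 (comm_plus_minus n)

theorem PZc (n : ℕ) {x y : V} (h : x ≠ y) : Pop n x * Zop n y = Zop n y * Pop n x :=
  siteOp_comm h _ _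
theorem PPc (n : ℕ) {x y : V} (h : x ≠ y) : Pop n x * Pop n y = Pop n y * Pop n x :=
  siteOp_comm h _ _
theorem PMc (n : ℕ) {x y : V} (h : x ≠ y) : Pop n x * Mop n y = Mop n y * Pop n x :=
  siteOp_comm h _ _
theorem MZc (n : ℕ) {x y : V} (h : x ≠ y) : Mop n x * Zop n y = Zop n y * Mop n x :=
  siteOp_comm h _ _
theorem MMc (n : ℕ) {x y : V} (h : x ≠ y) : Mop n x * Mop n y = Mop n y * Mop n x :=
  siteOp_comm h _ _
theorem ZZc (n : ℕ) {x y : V} (h : x ≠ y) : Zop n x * Zop n y = Zop n y * Zop n x :=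
  siteOp_comm h _ _

/-- the current operator -/
noncomputable def cur (n : ℕ) (x y : V) : Matrix (V → Fin (n + 1)) (V → Fin (n + 1)) ℂ :=
  Zop n x * Pop n y - Pop n x * Zop n y

theorem comm_P_dot_left (n : ℕ) {x y : V} (h : x ≠ y) :
    Pop n x * dot n x y - dot n x y * Pop n x = cur n x y := by
  rw [dot_def]
  exact abs_comm_Px (ZP n x) (PM n x) (PZc n h) (PPc n h) (PMc n h) (ZZc n h)
    (PZc n h.symm).symm

theorem comm_P_dot_right (n : ℕ) {x y : V} (h : x ≠ y) :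
    Pop n y * dot n x y - dot n x y * Pop n y = -cur n x y := by
  rw [dot_def]
  exact abs_comm_Py (ZP n y) (PM n y) (PZc n h.symm) (PPc n h.symm) (PMc n h.symm)

theorem siteOp_comm_dot (n : ℕ) {x y v : V} (hx : v ≠ x) (hy : v ≠ y)
    (A : Matrix (Fin (n + 1)) (Fin (n + 1)) ℂ) :
    siteOp v A * dot n x y = dot n x y * siteOp v A := by
  rw [dot, Finset.mul_sum, Finset.sum_mul]
  refine Finset.sum_congr rfl fun a _ => ?_
  rw [← mul_assoc, siteOp_comm hx, mul_assoc, siteOp_comm hy, mul_assoc]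

theorem comm_P_dot (n : ℕ) {x y : V} (h : x ≠ y) (v : V) :
    Pop n v * dot n x y - dot n x y * Pop n v =
      (if v = x then (1 : ℂ) else if v = y then -1 else 0) • cur n x y := by
  split_ifs with h1 h2
  · subst h1; rw [comm_P_dot_left n h, one_smul]
  · subst h2; rw [comm_P_dot_right n h, neg_one_smul]
  · rw [zero_smul, Pop, siteOp_comm_dot n h1 h2, sub_self]

theorem comm_cur_M (n : ℕ) {x y : V} (h : x ≠ y) (v : V) :
    cur n x y * Mop n v - Mop n v * cur n x y =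
      (if v = x then -(Mop n x * Pop n y) - (2 : ℂ) • (Zop n x * Zop n y)
        else if v = y then Pop n x * Mop n y + (2 : ℂ) • (Zop n x * Zop n y) else 0) := by
  split_ifs with h1 h2
  · subst h1
    exact abs_comm_DMx (ZM n v) (PM n v) (PMc n h.symm) (MZc n h).symm
  · subst h2
    exact abs_comm_DMy (ZM n v) (PM n v) (MZc n h.symm) (PMc n h).symm
  · have e1 : Mop n v * (Zop n x * Pop n y) = Zop n x * Pop n y * Mop n v := by
      rw [← mul_assoc, MZc n h1, mul_assoc, mul_assoc, PMc n (Ne.symm h2)]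
    have e2 : Mop n v * (Pop n x * Zop n y) = Pop n x * Zop n y * Mop n v := by
      rw [← mul_assoc, ← PMc n (Ne.symm h1), mul_assoc, mul_assoc, MZc n h2]
    rw [cur, sub_mul, mul_sub, e1, e2, sub_self]

theorem dot_isHermitian (n : ℕ) {x y : V} (h : x ≠ y) : (dot n x y).IsHermitian := by
  rw [IsHermitian, dot, conjTranspose_sum]
  refine Finset.sum_congr rfl fun a _ => ?_
  rw [conjTranspose_mul, siteOp_conjTranspose, siteOp_conjTranspose, spin_isHermitian n a,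
    siteOp_comm h.symm]

theorem raise_comm_dot (n : ℕ) {x y : V} (h : x ≠ y) :
    (Pop n x + Pop n y) * dot n x y = dot n x y * (Pop n x + Pop n y) := by
  rw [← sub_eq_zero, add_mul, mul_add, add_sub_add_comm, comm_P_dot_left n h,
    comm_P_dot_right n h, add_neg_cancel]

theorem Zop_diag (n : ℕ) (x : V) : Zop n x =
    diagonal (fun σ : V → Fin (n + 1) => (((n : ℝ) / 2 - ((σ x : ℕ) : ℝ) : ℝ) : ℂ)) := by
  rw [Zop, spinZ, siteOp_diagonal]
  congr 1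
  ext σ
  push_cast
  rfl

theorem MP_diag (n : ℕ) (x : V) : Mop n x * Pop n x =
    diagonal (fun σ : V → Fin (n + 1) =>
      ((((σ x : ℕ) : ℝ) * ((n : ℝ) + 1 - ((σ x : ℕ) : ℝ)) : ℝ) : ℂ)) := by
  rw [Mop, Pop, ← siteOp_mul, spinMinus_mul_spinPlus, siteOp_diagonal]
  congr 1
  ext σ
  push_cast
  rfl

/-- raising decreases the index -/
theorem raise_support (n : ℕ) {x y : V} (h : x ≠ y) (k : ℕ) (v : (V → Fin (n + 1)) → ℂ)
    (σ : V → Fin (n + 1)) (hne : ((Pop n x + Pop n y) ^ k *ᵥ v) σ ≠ 0) :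
    ∃ τ, v τ ≠ 0 ∧ (τ x : ℕ) + (τ y : ℕ) = (σ x : ℕ) + (σ y : ℕ) + k := by
  induction k generalizing σ with
  | zero => exact ⟨σ, by simpa using hne, by simp⟩
  | succ k ih =>
    rw [pow_succ', ← mulVec_mulVec, add_mulVec, Pi.add_apply, Pop, Pop, siteOp_mulVec,
      siteOp_mulVec] at hne
    have hcase : (∑ r, spinPlus n (σ x) r * ((siteOp x (spinPlus n) + siteOp y (spinPlus n)) ^ k *ᵥ v)
        (Function.update σ x r)) ≠ 0 ∨ (∑ r, spinPlus n (σ y) r *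
        ((siteOp x (spinPlus n) + siteOp y (spinPlus n)) ^ k *ᵥ v) (Function.update σ y r)) ≠ 0 := by
      by_contra hcon
      push Not at hcon
      rw [hcon.1, hcon.2, add_zero] at hne
      exact hne rfl
    rcases hcase with hc | hc
    · obtain ⟨r, _, hr⟩ := Finset.exists_ne_zero_of_sum_ne_zero hc
      have h1 : spinPlus n (σ x) r ≠ 0 := left_ne_zero_of_mul hr
      have h2 := right_ne_zero_of_mul hr
      rw [spinPlus_apply] at h1
      have h3 : (σ x : ℕ) + 1 = r := by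
        by_contra hcon; rw [if_neg hcon] at h1; exact h1 rfl
      obtain ⟨τ, hτ, hτ2⟩ := ih (Function.update σ x r) h2
      refine ⟨τ, hτ, ?_⟩
      rw [Function.update_self, Function.update_of_ne h.symm] at hτ2
      omega
    · obtain ⟨r, _, hr⟩ := Finset.exists_ne_zero_of_sum_ne_zero hc
      have h1 : spinPlus n (σ y) r ≠ 0 := left_ne_zero_of_mul hr
      have h2 := right_ne_zero_of_mul hr
      rw [spinPlus_apply] at h1
      have h3 : (σ y : ℕ) + 1 = r := by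
        by_contra hcon; rw [if_neg hcon] at h1; exact h1 rfl
      obtain ⟨τ, hτ, hτ2⟩ := ih (Function.update σ y r) h2
      refine ⟨τ, hτ, ?_⟩
      rw [Function.update_self, Function.update_of_ne h] at hτ2
      omega

theorem dot_eigen_le (n : ℕ) {x y : V} (h : x ≠ y) (l : ℝ) (v : (V → Fin (n + 1)) → ℂ)
    (hv : v ≠ 0) (hl : dot n x y *ᵥ v = (l : ℂ) • v) : l ≤ ((n : ℝ) / 2) ^ 2 := by
  classical
  set Q := Pop n x + Pop n y with hQ
  have hex : ∃ k : ℕ, Q ^ k *ᵥ v = 0 := by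
    refine ⟨2 * n + 1, ?_⟩
    by_contra hcon
    obtain ⟨σ, hσ⟩ := Function.ne_iff.1 hcon
    obtain ⟨τ, _, hτ⟩ := raise_support n h (2 * n + 1) v σ hσ
    have h1 := (τ x).2
    have h2 := (τ y).2
    omega
  obtain ⟨k, hk0, hkmin⟩ : ∃ k : ℕ, Q ^ k *ᵥ v = 0 ∧ ∀ m < k, Q ^ m *ᵥ v ≠ 0 :=
    ⟨Nat.find hex, Nat.find_spec hex, fun m hm => Nat.find_min hex hm⟩
  have hk1 : k ≠ 0 := by
    rintro rfl
    rw [pow_zero, one_mulVec] at hk0
    exact hv hk0
  obtain ⟨m, rfl⟩ := Nat.exists_eq_succ_of_ne_zero hk1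
  set w := Q ^ m *ᵥ v with hw
  have hw0 : w ≠ 0 := hkmin m (Nat.lt_succ_self m)
  have hQw : Q *ᵥ w = 0 := by
    rw [hw, mulVec_mulVec, ← pow_succ']; exact hk0
  have hcomm : Q ^ m * dot n x y = dot n x y * Q ^ m := by
    have : Commute Q (dot n x y) := raise_comm_dot n h
    exact (this.pow_left m)
  have hTw : dot n x y *ᵥ w = (l : ℂ) • w := by
    rw [hw, mulVec_mulVec, ← hcomm, ← mulVec_mulVec, hl, mulVec_smul]
  obtain ⟨σ, hσ⟩ := Function.ne_iff.1 hw0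
  have hmat : (Mop n x + Mop n y) * Q = Mop n x * Pop n x + Mop n y * Pop n y +
      (2 : ℂ) • dot n x y - (2 : ℂ) • (Zop n x * Zop n y) := by
    rw [dot_def, hQ, add_mul, mul_add, mul_add, smul_add, smul_smul, PMc n h]
    norm_num
    abel
  have hzero : ((Mop n x + Mop n y) * Q) *ᵥ w = 0 := by
    rw [← mulVec_mulVec, hQw, mulVec_zero]
  rw [hmat, sub_mulVec, add_mulVec, add_mulVec, smul_mulVec, smul_mulVec, hTw, MP_diag, MP_diag,
    Zop_diag, Zop_diag, diagonal_mul_diagonal] at hzero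
  have hz := congrFun hzero σ
  simp only [Pi.sub_apply, Pi.add_apply, mulVec_diagonal, Pi.smul_apply, smul_eq_mul,
    Pi.zero_apply] at hz
  have hz2 : ((((σ x : ℕ) : ℝ) * ((n : ℝ) + 1 - ((σ x : ℕ) : ℝ)) +
      ((σ y : ℕ) : ℝ) * ((n : ℝ) + 1 - ((σ y : ℕ) : ℝ)) + 2 * l -
      2 * (((n : ℝ) / 2 - ((σ x : ℕ) : ℝ)) * ((n : ℝ) / 2 - ((σ y : ℕ) : ℝ))) : ℝ) : ℂ) * w σ = 0 := by
    rw [← hz]; push_cast; ring
  have hz3 := (mul_eq_zero.1 hz2).resolve_right hσ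
  rw [Complex.ofReal_eq_zero] at hz3
  have b1 : ((σ x : ℕ) : ℝ) ≤ n := by exact_mod_cast Nat.lt_succ_iff.1 (σ x).2
  have b2 : ((σ y : ℕ) : ℝ) ≤ n := by exact_mod_cast Nat.lt_succ_iff.1 (σ y).2
  have b3 : (0 : ℝ) ≤ ((σ x : ℕ) : ℝ) := by positivity
  have b4 : (0 : ℝ) ≤ ((σ y : ℕ) : ℝ) := by positivity
  nlinarith [mul_nonneg (add_nonneg b3 b4) (by linarith : (0:ℝ) ≤ 2 * n - (((σ x : ℕ) : ℝ) + ((σ y : ℕ) : ℝ)))]

theorem posSemidef_of_eigen_le {ι : Type*} [Fintype ι] [DecidableEq ι] {X : Matrix ι ι ℂ}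
    (hX : X.IsHermitian) {w : ℝ}
    (h : ∀ (l : ℝ) (v : ι → ℂ), v ≠ 0 → X *ᵥ v = (l : ℂ) • v → l ≤ w) :
    ((w : ℂ) • (1 : Matrix ι ι ℂ) - X).PosSemidef := by
  have hY : ((w : ℂ) • (1 : Matrix ι ι ℂ) - X).IsHermitian := by
    rw [IsHermitian, conjTranspose_sub, hX.eq, conjTranspose_smul, conjTranspose_one]
    simp
  rw [hY.posSemidef_iff_eigenvalues_nonneg]
  intro i
  have h1 := hY.mulVec_eigenvectorBasis i
  have h2 : (⇑(hY.eigenvectorBasis i) : ι → ℂ) ≠ 0 := by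
    intro h0
    have h3 : hY.eigenvectorBasis i = 0 := by
      ext j; exact congrFun h0 j
    have h4 := hY.eigenvectorBasis.orthonormal.1 i
    rw [h3, norm_zero] at h4
    exact zero_ne_one h4
  have h5 : X *ᵥ ⇑(hY.eigenvectorBasis i) =
      ((w - hY.eigenvalues i : ℝ) : ℂ) • ⇑(hY.eigenvectorBasis i) := by
    rw [sub_mulVec, smul_mulVec, one_mulVec] at h1
    have h6 : (hY.eigenvalues i • ⇑(hY.eigenvectorBasis i) : ι → ℂ) =
        ((hY.eigenvalues i : ℝ) : ℂ) • ⇑(hY.eigenvectorBasis i) := by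
      ext j; simp
    rw [h6] at h1
    rw [Complex.ofReal_sub, sub_smul, ← h1]
    abel
  have h7 := h _ _ h2 h5
  simp only [Pi.zero_apply]
  linarith

theorem dot_le (n : ℕ) {x y : V} (h : x ≠ y) :
    (((((n : ℝ) / 2) ^ 2 : ℝ) : ℂ) • (1 : Matrix (V → Fin (n + 1)) (V → Fin (n + 1)) ℂ) -
      dot n x y).PosSemidef :=
  posSemidef_of_eigen_le (dot_isHermitian n h) (dot_eigen_le n h)

theorem ZZ_le (n : ℕ) (x y : V) :
    (((((n : ℝ) / 2) ^ 2 : ℝ) : ℂ) • (1 : Matrix (V → Fin (n + 1)) (V → Fin (n + 1)) ℂ) -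
      Zop n x * Zop n y).PosSemidef := by
  rw [Zop_diag, Zop_diag, diagonal_mul_diagonal, ← diagonal_one, ← diagonal_smul, diagonal_sub]
  apply PosSemidef.diagonal
  intro σ
  have b1 : ((σ x : ℕ) : ℝ) ≤ n := by exact_mod_cast Nat.lt_succ_iff.1 (σ x).2
  have b2 : ((σ y : ℕ) : ℝ) ≤ n := by exact_mod_cast Nat.lt_succ_iff.1 (σ y).2
  have b3 : (0 : ℝ) ≤ ((σ x : ℕ) : ℝ) := by positivity
  have b4 : (0 : ℝ) ≤ ((σ y : ℕ) : ℝ) := by positivity
  have key : 0 ≤ ((n : ℝ) / 2) ^ 2 - ((n : ℝ) / 2 - ((σ x : ℕ) : ℝ)) *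
      ((n : ℝ) / 2 - ((σ y : ℕ) : ℝ)) := by
    nlinarith [mul_nonneg b3 (sub_nonneg.2 b2), mul_nonneg b4 (sub_nonneg.2 b1)]
  simp only [Pi.smul_apply, smul_eq_mul, mul_one, Pi.zero_apply]
  rw [← Complex.ofReal_mul, ← Complex.ofReal_sub]
  exact_mod_cast key

/-- `S⁻ S⁺ ≤ 2 S (S - S³)` -/
theorem MP_le (n : ℕ) (x : V) :
    (((n : ℝ) : ℂ) • ((((n : ℝ) / 2 : ℝ) : ℂ) • (1 : Matrix (V → Fin (n + 1)) (V → Fin (n + 1)) ℂ) -
      Zop n x) - Mop n x * Pop n x).PosSemidef := by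
  rw [MP_diag, Zop_diag, ← diagonal_one, ← diagonal_smul, diagonal_sub, ← diagonal_smul,
    diagonal_sub]
  apply PosSemidef.diagonal
  intro σ
  have key : 0 ≤ (n : ℝ) * ((n : ℝ) / 2 - ((n : ℝ) / 2 - ((σ x : ℕ) : ℝ))) -
      ((σ x : ℕ) : ℝ) * ((n : ℝ) + 1 - ((σ x : ℕ) : ℝ)) := by
    have : ((σ x : ℕ) : ℝ) = 0 ∨ 1 ≤ ((σ x : ℕ) : ℝ) := by
      rcases Nat.eq_zero_or_pos (σ x : ℕ) with h | h
      · left; exact_mod_cast h
      · right; exact_mod_cast h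
    rcases this with h | h
    · rw [h]; ring_nf; exact le_refl _
    · nlinarith
  simp only [Pi.smul_apply, smul_eq_mul, mul_one, Pi.zero_apply]
  rw [← Complex.ofReal_sub, ← Complex.ofReal_mul, ← Complex.ofReal_sub]
  exact_mod_cast key

end Vale.Agent.P361
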