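import Vale.Agent.Lib.P361.Reindex

open Matrix NormedSpace
open scoped ComplexOrder

namespace Vale.Agent.P361

section Gen

variable {V : Type*} [DecidableEq V] [Fintype V]

/-- `-S_x · S_y ≤ S (S + 1)` -/
theorem neg_dot_le (n : ℕ) {x y : V} (h : x ≠ y) :
    ((((n : ℝ) / 2 * ((n : ℝ) / 2 + 1) : ℝ) : ℂ) •
      (1 : Matrix (V → Fin (n + 1)) (V → Fin (n + 1)) ℂ) - (-dot n x y)).PosSemidef := by
  have h1 : (((n : ℝ) / 2 * ((n : ℝ) / 2 + 1) : ℝ) : ℂ) •
      (1 : Matrix (V → Fin (n + 1)) (V → Fin (n + 1)) ℂ) - (-dot n x y) =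
      ∑ a : Fin 3, (1 / 2 : ℝ) • ((siteOp x (spin n a) + siteOp y (spin n a))ᴴ *
        (siteOp x (spin n a) + siteOp y (spin n a))) := by
    have hcas : ∀ v : V, ∑ a : Fin 3, siteOp v (spin n a) * siteOp v (spin n a) =
        (((n : ℝ) / 2 * ((n : ℝ) / 2 + 1) : ℝ) : ℂ) •
          (1 : Matrix (V → Fin (n + 1)) (V → Fin (n + 1)) ℂ) := by
      intro v
      have h2 := spin_casimir n
      have h3 : ∑ a : Fin 3, siteOp v (spin n a) * siteOp v (spin n a) =
          siteOp v (∑ a : Fin 3, spin n a * spin n a) := by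
        rw [Fin.sum_univ_three, Fin.sum_univ_three, siteOp_add, siteOp_add, siteOp_mul, siteOp_mul,
          siteOp_mul]
      rw [h3, h2, siteOp_smul, siteOp_one]
      congr 1
      push_cast
      ring
    have hexp : ∀ a : Fin 3, (1 / 2 : ℝ) • ((siteOp x (spin n a) + siteOp y (spin n a))ᴴ *
        (siteOp x (spin n a) + siteOp y (spin n a))) =
        (1 / 2 : ℝ) • (siteOp x (spin n a) * siteOp x (spin n a)) +
        (1 / 2 : ℝ) • (siteOp y (spin n a) * siteOp y (spin n a)) +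
        siteOp x (spin n a) * siteOp y (spin n a) := by
      intro a
      rw [conjTranspose_add, siteOp_conjTranspose, siteOp_conjTranspose, spin_isHermitian n a,
        add_mul, mul_add, mul_add, siteOp_comm h.symm]
      module
    simp_rw [hexp]
    rw [Finset.sum_add_distrib, Finset.sum_add_distrib, ← Finset.smul_sum, ← Finset.smul_sum,
      hcas, hcas, sub_neg_eq_add, dot]
    congr 1
    rw [← add_smul]
    norm_num
  rw [h1]
  apply posSemidef_sum
  intro a _
  apply PosSemidef.smul (posSemidef_conjTranspose_mul_self _)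
  norm_num

/-- logarithm of the partition function on a finite bond set -/
noncomputable def logZ (n : ℕ) (β h : ℝ) (E : Finset (V × V)) : ℝ :=
  Real.log (trace (exp (-bham n E β h))).re

theorem logZ_diff (n : ℕ) {β : ℝ} (hβ : 0 ≤ β) (h : ℝ) {E E' : Finset (V × V)} (hsub : E ⊆ E')
    (hE' : ∀ p ∈ E', p.1 ≠ p.2) :
    |logZ n β h E' - logZ n β h E| ≤ β * ((n : ℝ) / 2 * ((n : ℝ) / 2 + 1)) * (E' \ E).card := by
  have hE : ∀ p ∈ E, p.1 ≠ p.2 := fun p hp => hE' p (hsub hp)
  have hH : (-bham n E β h).IsHermitian := (bham_isHermitian n E hE β h).neg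
  have hH' : (-bham n E' β h).IsHermitian := (bham_isHermitian n E' hE' β h).neg
  set C := (n : ℝ) / 2 * ((n : ℝ) / 2 + 1) with hC
  have hdiff : -bham n E' β h - -bham n E β h = ∑ p ∈ E' \ E, β • dot n p.1 p.2 := by
    rw [← Finset.smul_sum, bham, bham, ham, ham]
    have h1 := Finset.sum_sdiff (f := fun p : V × V => dot n p.1 p.2) hsub
    rw [← h1]
    rw [← Complex.coe_smul]
    module
  have hup : (((β * C * (E' \ E).card : ℝ) : ℂ) •
      (1 : Matrix (V → Fin (n + 1)) (V → Fin (n + 1)) ℂ) -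
      (-bham n E' β h - -bham n E β h)).PosSemidef := by
    have h2 : (((β * C * (E' \ E).card : ℝ) : ℂ) •
      (1 : Matrix (V → Fin (n + 1)) (V → Fin (n + 1)) ℂ) -
      (-bham n E' β h - -bham n E β h)) = ∑ p ∈ E' \ E, (β • ((((C : ℝ) : ℂ) •
      (1 : Matrix (V → Fin (n + 1)) (V → Fin (n + 1)) ℂ)) - dot n p.1 p.2)) := by
      rw [hdiff]
      simp only [smul_sub, Finset.sum_sub_distrib, Finset.sum_const, ← Complex.coe_smul,
        smul_smul, ← Nat.cast_smul_eq_nsmul ℂ]
      push_cast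
      congr 2
      ring
    rw [h2]
    apply posSemidef_sum
    intro p hp
    apply PosSemidef.smul _ hβ
    have h3 := dot_le n (hE' p (Finset.mem_sdiff.1 hp).1)
    have h4 : ((C : ℝ) : ℂ) • (1 : Matrix (V → Fin (n + 1)) (V → Fin (n + 1)) ℂ) - dot n p.1 p.2 =
        (((((n : ℝ) / 2) ^ 2 : ℝ) : ℂ) • (1 : Matrix (V → Fin (n + 1)) (V → Fin (n + 1)) ℂ) -
          dot n p.1 p.2) + ((n : ℝ) / 2) • (1 : Matrix (V → Fin (n + 1)) (V → Fin (n + 1)) ℂ) := by
      rw [hC, ← Complex.coe_smul ((n : ℝ) / 2)]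
      push_cast
      module
    rw [h4]
    exact h3.add (PosSemidef.smul PosSemidef.one (by positivity))
  have hdown : (((β * C * (E' \ E).card : ℝ) : ℂ) •
      (1 : Matrix (V → Fin (n + 1)) (V → Fin (n + 1)) ℂ) -
      (-bham n E β h - -bham n E' β h)).PosSemidef := by
    have h2 : (((β * C * (E' \ E).card : ℝ) : ℂ) •
      (1 : Matrix (V → Fin (n + 1)) (V → Fin (n + 1)) ℂ) -
      (-bham n E β h - -bham n E' β h)) = ∑ p ∈ E' \ E, (β • ((((C : ℝ) : ℂ) •
      (1 : Matrix (V → Fin (n + 1)) (V → Fin (n + 1)) ℂ)) - (-dot n p.1 p.2))) := by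
      rw [← neg_sub (-bham n E' β h), hdiff]
      simp only [smul_sub, Finset.sum_sub_distrib, Finset.sum_const, ← Complex.coe_smul,
        smul_smul, ← Nat.cast_smul_eq_nsmul ℂ, smul_neg, Finset.sum_neg_distrib]
      push_cast
      congr 2
      ring
    rw [h2]
    apply posSemidef_sum
    intro p hp
    exact PosSemidef.smul (neg_dot_le n (hE' p (Finset.mem_sdiff.1 hp).1)) hβ
  have k1 := log_trace_exp_le hH hH' hup
  have k2 := log_trace_exp_le hH' hH hdown
  rw [abs_le]
  constructor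
  · simp only [logZ]; linarith
  · simp only [logZ]; linarith

end Gen

end Vale.Agent.P361
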