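import Vale.Agent.Lib.P361.FV3

open MeasureTheory Real Matrix

namespace Vale.Agent.P361

theorem exponent_eq (n : ℕ) (β h : ℝ) (Λ : Finset (Fin 3 → ℤ)) :
    ((-β : ℂ) • (hamiltonian n Λ - (h : ℂ) • totalSpinZ n Λ)) = -bham n (bonds Λ) β h := by
  rw [bham, ← neg_smul]; rfl

theorem finitePressure_eq (n : ℕ) (β h : ℝ) (Λ : Finset (Fin 3 → ℤ)) :
    finitePressure n β h Λ = (1 / (β * Λ.card)) * Real.log (partZ n β h Λ) := by
  rw [finitePressure, exponent_eq]; rfl

/-- Peierls–Bogoliubov: supporting lines for the finite-volume pressure. -/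
theorem pressure_support (n : ℕ) {β : ℝ} (hβ : 0 < β) (h h' : ℝ) (Λ : Finset (Fin 3 → ℤ))
    (hΛ : Λ.Nonempty) :
    finitePressure n β h Λ + (h' - h) * mag n β h Λ ≤ finitePressure n β h' Λ := by
  have hcard : (0 : ℝ) < Λ.card := by exact_mod_cast hΛ.card_pos
  have h1 := peierls_bogoliubov (bhamΛ_isHermitian n β h Λ) (bhamΛ_isHermitian n β h' Λ)
  have h2 : -bham n (bonds Λ) β h' - -bham n (bonds Λ) β h =
      ((β * (h' - h) : ℝ) : ℂ) • Mtot n Λ := by
    rw [bham, bham]
    push_cast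
    module
  rw [h2] at h1
  change Real.log (partZ n β h Λ) + ev (rho n β h Λ) (((β * (h' - h) : ℝ) : ℂ) • Mtot n Λ) /
    partZ n β h Λ ≤ Real.log (partZ n β h' Λ) at h1
  rw [ev_smul] at h1
  rw [finitePressure_eq, finitePressure_eq, mag]
  have hZ := partZ_pos n β h Λ
  have h3 : (1 / (β * Λ.card)) * (Real.log (partZ n β h Λ) +
      β * (h' - h) * ev (rho n β h Λ) (Mtot n Λ) / partZ n β h Λ) ≤
      (1 / (β * Λ.card)) * Real.log (partZ n β h' Λ) :=
    mul_le_mul_of_nonneg_left h1 (by positivity)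
  refine le_trans (le_of_eq ?_) h3
  field_simp

theorem finitePressure_convex (n : ℕ) {β : ℝ} (hβ : 0 < β) (Λ : Finset (Fin 3 → ℤ))
    (hΛ : Λ.Nonempty) : ConvexOn ℝ Set.univ (fun h => finitePressure n β h Λ) := by
  refine ⟨convex_univ, ?_⟩
  intro x _ y _ a b ha hb hab
  have h1 := pressure_support n hβ (a • x + b • y) x Λ hΛ
  have h2 := pressure_support n hβ (a • x + b • y) y Λ hΛ
  simp only [smul_eq_mul] at *
  set m := mag n β (a * x + b * y) Λ
  set P := finitePressure n β (a * x + b * y) Λ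
  have h3 := add_le_add (mul_le_mul_of_nonneg_left h1 ha) (mul_le_mul_of_nonneg_left h2 hb)
  have h4 : a * (P + (x - (a * x + b * y)) * m) + b * (P + (y - (a * x + b * y)) * m) = P := by
    have hb' : b = 1 - a := by linarith
    rw [hb']; ring
  rw [h4] at h3
  exact h3

theorem swd_mono (n J : ℕ) {β h t t' : ℝ} (hβ : 0 ≤ β) (htt : t ≤ t') :
    swd n J β h t' ≤ swd n J β h t := by
  refine Finset.sum_le_sum fun j _ => ?_
  apply mul_le_mul_of_nonneg_left _ (by positivity)
  have hcont : ∀ s : ℝ, IntegrableOn (fun k : Fin 3 → ℝ =>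
      Real.exp (-((j + 1 : ℕ) * (β * (h + s * disp n k))))) zone := by
    intro s
    apply ContinuousOn.integrableOn_compact isCompact_zone
    have := disp_continuous n
    fun_prop
  apply integral_mono (hcont t') (hcont t)
  intro k
  apply Real.exp_le_exp.2
  apply neg_le_neg
  have := disp_nonneg n k
  gcongr

/-- The finite-volume inequality in terms of difference quotients of the pressure. -/
theorem finite_volume_slope (n : ℕ) (hn : 1 ≤ n) (β h : ℝ) (hβ : 0 < β) (hh : 0 < h)
    (Λ : Finset (Fin 3 → ℤ)) (hΛ : Λ.Nonempty) (J : ℕ) {q : ℝ} (hq : 0 < q)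
    (hle : q ≤ mag n β h Λ) :
    q * swd n J β h ((n : ℝ) / 2 / q) ≤ (n : ℝ) / 2 * ((n : ℝ) / 2 - q) := by
  have hm : 0 < mag n β h Λ := lt_of_lt_of_le hq hle
  have h1 := finite_volume n hn β h hβ hh Λ hΛ J hm
  have h0 : 0 ≤ swd n J β h ((n : ℝ) / 2 / q) :=
    Finset.sum_nonneg fun j _ => mul_nonneg (by positivity)
      (integral_nonneg fun k => (Real.exp_pos _).le)
  have h2 : swd n J β h ((n : ℝ) / 2 / q) ≤ swd n J β h ((n : ℝ) / 2 / mag n β h Λ) := by
    apply swd_mono n J hβ.le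
    apply div_le_div_of_nonneg_left (by positivity) hq hle
  have hn' : (0 : ℝ) < n := by exact_mod_cast hn
  calc q * swd n J β h ((n : ℝ) / 2 / q)
      ≤ mag n β h Λ * swd n J β h ((n : ℝ) / 2 / mag n β h Λ) := by
        apply mul_le_mul hle h2 h0 hm.le
    _ ≤ _ := h1
    _ ≤ _ := by
        apply mul_le_mul_of_nonneg_left _ (by positivity)
        linarith

theorem swd_continuous (n J : ℕ) (β : ℝ) :
    Continuous fun p : ℝ × ℝ => swd n J β p.1 p.2 := by
  unfold swd
  apply continuous_finsetSum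
  intro j _
  apply Continuous.mul continuous_const
  apply continuous_parametric_integral_of_continuous _ isCompact_zone
  have := disp_continuous n
  fun_prop

end Vale.Agent.P361
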