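import Vale.Agent.Lib.P361.Kron

open Matrix NormedSpace
open scoped Kronecker

namespace Vale.Agent.P361

section L1

variable {V V' d : Type*} [DecidableEq V] [Fintype V] [DecidableEq V'] [Fintype V']
  [DecidableEq d] [Fintype d]

/-- configurations transported along a bijection of the sites -/
def confEquiv (d : Type*) (e : V ≃ V') : (V → d) ≃ (V' → d) := Equiv.arrowCongr e (Equiv.refl d)

theorem siteOp_reindex (e : V ≃ V') (x : V) (A : Matrix d d ℂ) :
    (Matrix.reindexAlgEquiv ℂ ℂ (confEquiv d e)) (siteOp x A) = siteOp (e x) A := by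
  ext σ τ
  change siteOp x A (fun v => σ (e v)) (fun v => τ (e v)) = siteOp (e x) A σ τ
  simp only [siteOp, Matrix.of_apply]
  have h : (∀ y, y ≠ x → σ (e y) = τ (e y)) ↔ (∀ y, y ≠ e x → σ y = τ y) := by
    constructor
    · intro h y hy
      have := h (e.symm y) (fun h' => hy (by rw [← h', Equiv.apply_symm_apply]))
      simpa using this
    · intro h y hy
      exact h (e y) (fun h' => hy (e.injective h'))
  by_cases hc : ∀ y, y ≠ x → σ (e y) = τ (e y)
  · rw [if_pos hc, if_pos (h.1 hc)]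
  · rw [if_neg hc, if_neg (fun h' => hc (h.2 h'))]

theorem bham_reindex (n : ℕ) (e : V ≃ V') (E : Finset (V × V)) (β h : ℝ) :
    (Matrix.reindexAlgEquiv ℂ ℂ (confEquiv (Fin (n + 1)) e)) (bham n E β h) =
      bham n (E.map (e.prodCongr e).toEmbedding) β h := by
  have hham : (Matrix.reindexAlgEquiv ℂ ℂ (confEquiv (Fin (n + 1)) e)) (ham n E) =
      ham n (E.map (e.prodCongr e).toEmbedding) := by
    rw [ham, ham, map_neg, map_sum, Finset.sum_map]
    congr 1
    refine Finset.sum_congr rfl fun p _ => ?_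
    rw [dot, dot, map_sum]
    refine Finset.sum_congr rfl fun a _ => ?_
    rw [map_mul, siteOp_reindex, siteOp_reindex]
    rfl
  have hM : (Matrix.reindexAlgEquiv ℂ ℂ (confEquiv (Fin (n + 1)) e)) (Mtot n V) = Mtot n V' := by
    rw [Mtot, Mtot, map_sum, ← e.sum_comp]
    refine Finset.sum_congr rfl fun x _ => ?_
    rw [Zop, siteOp_reindex]
    rfl
  rw [bham, bham, map_smul, map_sub, map_smul, hham, hM]

theorem trace_bham_equiv (n : ℕ) (e : V ≃ V') (E : Finset (V × V)) (E' : Finset (V' × V'))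
    (hE : ∀ x y, (x, y) ∈ E ↔ (e x, e y) ∈ E') (β h : ℝ) :
    trace (exp (-bham n E' β h)) = trace (exp (-bham n E β h)) := by
  have h1 : E' = E.map (e.prodCongr e).toEmbedding := by
    ext ⟨x, y⟩
    rw [Finset.mem_map]
    constructor
    · intro hxy
      refine ⟨(e.symm x, e.symm y), (hE _ _).2 (by simpa using hxy), by simp⟩
    · rintro ⟨⟨u, v⟩, huv, huv2⟩
      have := (hE u v).1 huv
      simp only [Equiv.coe_toEmbedding, Equiv.prodCongr_apply, Prod.map_apply, Prod.mk.injEq] at huv2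
      rw [huv2.1, huv2.2] at this
      exact this
  rw [h1, ← bham_reindex, ← map_neg]
  exact trace_exp_submatrix (confEquiv (Fin (n + 1)) e) (-bham n E β h)

end L1

section L2

variable {V d : Type*} [DecidableEq V] [Fintype V] [DecidableEq d] [Fintype d]
  (p : V → Prop) [DecidablePred p]

/-- splitting of the configurations -/
def splitEquiv (d : Type*) : (V → d) ≃ ({v // p v} → d) × ({v // ¬ p v} → d) :=
  Equiv.piEquivPiSubtypeProd p (fun _ => d)

theorem siteOp_split_pos {x : V} (hx : p x) (A : Matrix d d ℂ) :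
    (Matrix.reindexAlgEquiv ℂ ℂ (splitEquiv p d)) (siteOp x A) =
      (siteOp (⟨x, hx⟩ : {v // p v}) A) ⊗ₖ (1 : Matrix ({v // ¬ p v} → d) ({v // ¬ p v} → d) ℂ) := by
  ext ⟨σ1, σ2⟩ ⟨τ1, τ2⟩
  rw [kronecker_apply]
  change siteOp x A (fun v => if h : p v then σ1 ⟨v, h⟩ else σ2 ⟨v, h⟩)
    (fun v => if h : p v then τ1 ⟨v, h⟩ else τ2 ⟨v, h⟩) = _
  simp only [siteOp, Matrix.of_apply, one_apply, hx, dite_true]
  by_cases h2 : σ2 = τ2
  · subst h2
    rw [if_pos rfl, mul_one]
    have h : (∀ y, y ≠ x → (if h : p y then σ1 ⟨y, h⟩ else σ2 ⟨y, h⟩) =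
        (if h : p y then τ1 ⟨y, h⟩ else σ2 ⟨y, h⟩)) ↔
        (∀ y : {v // p v}, y ≠ ⟨x, hx⟩ → σ1 y = τ1 y) := by
      constructor
      · intro h y hy
        have := h y.1 (fun h' => hy (Subtype.ext h'))
        simpa [y.2] using this
      · intro h y hy
        by_cases hp : p y
        · have := h ⟨y, hp⟩ (fun h' => hy (congrArg Subtype.val h'))
          simpa [hp] using this
        · simp [hp]
    by_cases hc : (∀ y : {v // p v}, y ≠ ⟨x, hx⟩ → σ1 y = τ1 y)
    · rw [if_pos (h.2 hc), if_pos hc]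
    · rw [if_neg (fun h' => hc (h.1 h')), if_neg hc]
  · rw [if_neg h2, mul_zero, if_neg]
    intro h
    apply h2
    ext ⟨y, hy⟩
    have := h y (fun h' => hy (h' ▸ hx))
    simpa [hy] using this

theorem siteOp_split_neg {x : V} (hx : ¬ p x) (A : Matrix d d ℂ) :
    (Matrix.reindexAlgEquiv ℂ ℂ (splitEquiv p d)) (siteOp x A) =
      (1 : Matrix ({v // p v} → d) ({v // p v} → d) ℂ) ⊗ₖ (siteOp (⟨x, hx⟩ : {v // ¬ p v}) A) := by
  ext ⟨σ1, σ2⟩ ⟨τ1, τ2⟩
  rw [kronecker_apply]
  change siteOp x A (fun v => if h : p v then σ1 ⟨v, h⟩ else σ2 ⟨v, h⟩)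
    (fun v => if h : p v then τ1 ⟨v, h⟩ else τ2 ⟨v, h⟩) = _
  simp only [siteOp, Matrix.of_apply, one_apply, hx, dite_false]
  by_cases h2 : σ1 = τ1
  · subst h2
    rw [if_pos rfl, one_mul]
    have h : (∀ y, y ≠ x → (if h : p y then σ1 ⟨y, h⟩ else σ2 ⟨y, h⟩) =
        (if h : p y then σ1 ⟨y, h⟩ else τ2 ⟨y, h⟩)) ↔
        (∀ y : {v // ¬ p v}, y ≠ ⟨x, hx⟩ → σ2 y = τ2 y) := by
      constructor
      · intro h y hy
        have := h y.1 (fun h' => hy (Subtype.ext h'))
        simpa [y.2] using this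
      · intro h y hy
        by_cases hp : p y
        · simp [hp]
        · have := h ⟨y, hp⟩ (fun h' => hy (congrArg Subtype.val h'))
          simpa [hp] using this
    by_cases hc : (∀ y : {v // ¬ p v}, y ≠ ⟨x, hx⟩ → σ2 y = τ2 y)
    · rw [if_pos (h.2 hc), if_pos hc]
    · rw [if_neg (fun h' => hc (h.1 h')), if_neg hc]
  · rw [if_neg h2, zero_mul, if_neg]
    intro h
    apply h2
    ext ⟨y, hy⟩
    have := h y (fun h' => hx (h' ▸ hy))
    simpa [hy] using this

/-- bonds inside a subset of the sites -/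
def subBonds (E : Finset (V × V)) (q : V → Prop) [DecidablePred q] :
    Finset ({v // q v} × {v // q v}) :=
  Finset.univ.filter fun e => ((e.1 : V), (e.2 : V)) ∈ E

theorem sum_subBonds {M : Type*} [AddCommMonoid M] (E : Finset (V × V)) (q : V → Prop)
    [DecidablePred q] (hE : ∀ e ∈ E, q e.1 → q e.2) (G : V × V → M) :
    ∑ e ∈ E with q e.1, G e = ∑ e ∈ subBonds E q, G ((e.1 : V), (e.2 : V)) := by
  symm
  refine Finset.sum_bij (fun e _ => ((e.1 : V), (e.2 : V))) ?_ ?_ ?_ ?_
  · intro e he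
    simp only [subBonds, Finset.mem_filter, Finset.mem_univ, true_and] at he
    simp only [Finset.mem_filter]
    exact ⟨he, e.1.2⟩
  · intro e _ e' _ h
    simp only [Prod.mk.injEq] at h
    exact Prod.ext (Subtype.ext h.1) (Subtype.ext h.2)
  · intro e he
    simp only [Finset.mem_filter] at he
    refine ⟨(⟨e.1, he.2⟩, ⟨e.2, hE e he.1 he.2⟩), ?_, rfl⟩
    simp only [subBonds, Finset.mem_filter, Finset.mem_univ, true_and]
    exact he.1
  · intro e _; rfl

theorem bham_split (n : ℕ) (E : Finset (V × V)) (hE : ∀ e ∈ E, (p e.1 ↔ p e.2)) (β h : ℝ) :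
    (Matrix.reindexAlgEquiv ℂ ℂ (splitEquiv p (Fin (n + 1)))) (bham n E β h) =
      (bham n (subBonds E p) β h) ⊗ₖ
          (1 : Matrix ({v // ¬ p v} → Fin (n + 1)) ({v // ¬ p v} → Fin (n + 1)) ℂ) +
        (1 : Matrix ({v // p v} → Fin (n + 1)) ({v // p v} → Fin (n + 1)) ℂ) ⊗ₖ
          (bham n (subBonds E (fun v => ¬ p v)) β h) := by
  change _ = kronLeft _ _ (bham n (subBonds E p) β h) +
    kronRight _ _ (bham n (subBonds E (fun v => ¬ p v)) β h)
  rw [bham, bham, bham, map_smul, map_smul, map_smul, ← smul_add]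
  congr 1
  rw [map_sub, map_sub, map_sub, map_smul, map_smul, map_smul]
  have hham : (Matrix.reindexAlgEquiv ℂ ℂ (splitEquiv p (Fin (n + 1)))) (ham n E) =
      kronLeft _ _ (ham n (subBonds E p)) + kronRight _ _ (ham n (subBonds E (fun v => ¬ p v))) := by
    rw [ham, ham, ham, map_neg, map_neg, map_neg, ← neg_add, map_sum, map_sum, map_sum]
    congr 1
    rw [← Finset.sum_filter_add_sum_filter_not E (fun e => p e.1)]
    rw [sum_subBonds E p (fun e he => (hE e he).1),
      sum_subBonds E (fun v => ¬ p v) (fun e he => fun h1 h2 => h1 ((hE e he).2 h2))]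
    congr 1
    · refine Finset.sum_congr rfl fun e _ => ?_
      rw [dot, dot, map_sum, map_sum]
      refine Finset.sum_congr rfl fun a _ => ?_
      rw [map_mul, map_mul, siteOp_split_pos p e.1.2, siteOp_split_pos p e.2.2]
      rfl
    · refine Finset.sum_congr rfl fun e _ => ?_
      rw [dot, dot, map_sum, map_sum]
      refine Finset.sum_congr rfl fun a _ => ?_
      rw [map_mul, map_mul, siteOp_split_neg p e.1.2, siteOp_split_neg p e.2.2]
      rfl
  have hM : (Matrix.reindexAlgEquiv ℂ ℂ (splitEquiv p (Fin (n + 1)))) (Mtot n V) =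
      kronLeft _ _ (Mtot n {v // p v}) + kronRight _ _ (Mtot n {v // ¬ p v}) := by
    rw [Mtot, Mtot, Mtot, map_sum, map_sum, map_sum,
      ← Fintype.sum_subtype_add_sum_subtype p]
    congr 1
    · refine Finset.sum_congr rfl fun x _ => ?_
      rw [Zop, siteOp_split_pos p x.2]
      rfl
    · refine Finset.sum_congr rfl fun x _ => ?_
      rw [Zop, siteOp_split_neg p x.2]
      rfl
  rw [hham, hM, smul_add]
  abel

theorem trace_bham_split (n : ℕ) (E : Finset (V × V)) (hE : ∀ e ∈ E, (p e.1 ↔ p e.2)) (β h : ℝ) :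
    trace (exp (-bham n E β h)) = trace (exp (-bham n (subBonds E p) β h)) *
      trace (exp (-bham n (subBonds E (fun v => ¬ p v)) β h)) := by
  rw [← trace_exp_kron]
  have h1 := bham_split p n E hE β h
  have h2 : (-bham n (subBonds E p) β h) ⊗ₖ
          (1 : Matrix ({v // ¬ p v} → Fin (n + 1)) ({v // ¬ p v} → Fin (n + 1)) ℂ) +
        (1 : Matrix ({v // p v} → Fin (n + 1)) ({v // p v} → Fin (n + 1)) ℂ) ⊗ₖ
          (-bham n (subBonds E (fun v => ¬ p v)) β h) =
      (Matrix.reindexAlgEquiv ℂ ℂ (splitEquiv p (Fin (n + 1)))) (-bham n E β h) := by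
    rw [map_neg, h1]
    change kronLeft _ _ (-bham n (subBonds E p) β h) +
      kronRight _ _ (-bham n (subBonds E (fun v => ¬ p v)) β h) =
      -(kronLeft _ _ (bham n (subBonds E p) β h) +
      kronRight _ _ (bham n (subBonds E (fun v => ¬ p v)) β h))
    rw [map_neg, map_neg, neg_add]
  rw [h2]
  exact (trace_exp_submatrix (splitEquiv p (Fin (n + 1))) (-bham n E β h)).symm

end L2

end Vale.Agent.P361
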