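import Vale.Agent.Lib.P361.Defs

open Matrix

namespace Vale.Agent.P361

variable {V d : Type*} [DecidableEq V] [Fintype V] [DecidableEq d] [Fintype d]

theorem siteOp_mulVec (x : V) (A : Matrix d d ℂ) (v : (V → d) → ℂ) (σ : V → d) :
    (siteOp x A *ᵥ v) σ = ∑ r, A (σ x) r * v (Function.update σ x r) := by
  simp only [mulVec, dotProduct, siteOp, Matrix.of_apply, ite_mul, zero_mul]
  rw [← Finset.sum_filter]
  refine Finset.sum_nbij' (fun τ => τ x) (fun r => Function.update σ x r) ?_ ?_ ?_ ?_ ?_
  · intro τ _; simp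
  · intro r _
    simp only [Finset.mem_filter, Finset.mem_univ, true_and]
    intro y hy
    rw [Function.update_of_ne hy]
  · intro τ hτ
    simp only [Finset.mem_filter, Finset.mem_univ, true_and] at hτ
    ext y
    by_cases hy : y = x
    · subst hy; simp
    · rw [Function.update_of_ne hy, hτ y hy]
  · intro r _; simp
  · intro τ hτ
    simp only [Finset.mem_filter, Finset.mem_univ, true_and] at hτ
    congr 2
    ext y
    by_cases hy : y = x
    · subst hy; simp
    · rw [Function.update_of_ne hy, hτ y hy]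

theorem mulVec_ext {ι : Type*} [Fintype ι] {A B : Matrix ι ι ℂ}
    (h : ∀ v σ, (A *ᵥ v) σ = (B *ᵥ v) σ) : A = B :=
  Matrix.mulVec_injective (funext fun v => funext fun σ => h v σ)

theorem siteOp_mul (x : V) (A B : Matrix d d ℂ) :
    siteOp x (A * B) = siteOp x A * siteOp x B := by
  apply mulVec_ext
  intro v σ
  rw [← mulVec_mulVec, siteOp_mulVec, siteOp_mulVec]
  simp only [siteOp_mulVec, Function.update_self, Function.update_idem, mul_apply,
    Finset.sum_mul, Finset.mul_sum, mul_assoc]
  rw [Finset.sum_comm]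

theorem siteOp_comm {x y : V} (hxy : x ≠ y) (A B : Matrix d d ℂ) :
    siteOp x A * siteOp y B = siteOp y B * siteOp x A := by
  apply mulVec_ext
  intro v σ
  rw [← mulVec_mulVec, ← mulVec_mulVec, siteOp_mulVec, siteOp_mulVec]
  simp only [siteOp_mulVec, Finset.mul_sum]
  rw [Finset.sum_comm]
  refine Finset.sum_congr rfl fun r _ => Finset.sum_congr rfl fun s _ => ?_
  rw [Function.update_of_ne hxy.symm, Function.update_of_ne hxy, Function.update_comm hxy]
  ring

theorem siteOp_add (x : V) (A B : Matrix d d ℂ) :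
    siteOp x (A + B) = siteOp x A + siteOp x B := by
  ext σ τ
  simp only [siteOp, Matrix.of_apply, Matrix.add_apply]
  split_ifs <;> simp

theorem siteOp_sub (x : V) (A B : Matrix d d ℂ) :
    siteOp x (A - B) = siteOp x A - siteOp x B := by
  ext σ τ
  simp only [siteOp, Matrix.of_apply, Matrix.sub_apply]
  split_ifs <;> simp

theorem siteOp_smul (x : V) (c : ℂ) (A : Matrix d d ℂ) :
    siteOp x (c • A) = c • siteOp x A := by
  ext σ τ
  simp only [siteOp, Matrix.of_apply, Matrix.smul_apply]
  split_ifs <;> simp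

theorem siteOp_neg (x : V) (A : Matrix d d ℂ) : siteOp x (-A) = -siteOp x A := by
  ext σ τ
  simp only [siteOp, Matrix.of_apply, Matrix.neg_apply]
  split_ifs <;> simp

theorem siteOp_diagonal (x : V) (f : d → ℂ) :
    siteOp x (diagonal f) = diagonal (fun σ : V → d => f (σ x)) := by
  ext σ τ
  simp only [siteOp, Matrix.of_apply, diagonal_apply]
  by_cases h : σ = τ
  · subst h; simp
  · rw [if_neg h]
    split_ifs with h1 h2
    · exfalso
      apply h
      ext y
      by_cases hy : y = x
      · subst hy; exact h2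
      · exact h1 y hy
    · rfl
    · rfl

theorem siteOp_one (x : V) : siteOp x (1 : Matrix d d ℂ) = 1 := by
  rw [← diagonal_one, siteOp_diagonal, diagonal_one]

theorem siteOp_conjTranspose (x : V) (A : Matrix d d ℂ) :
    (siteOp x A)ᴴ = siteOp x Aᴴ := by
  ext σ τ
  simp only [siteOp, Matrix.of_apply, conjTranspose_apply]
  by_cases h : ∀ y, y ≠ x → σ y = τ y
  · rw [if_pos h, if_pos fun y hy => (h y hy).symm]
  · rw [if_neg h, if_neg fun h' => h fun y hy => (h' y hy).symm]
    simp

end Vale.Agent.P361
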