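import Vale.Agent.Lib.P361.Site

open Matrix

namespace Vale.Agent.P361

theorem spinZ_conjTranspose (n : ℕ) : (spinZ n)ᴴ = spinZ n := by
  rw [spinZ, diagonal_conjTranspose]
  congr 1
  ext j
  simp

theorem spinPlus_apply (n : ℕ) (i j : Fin (n + 1)) : spinPlus n i j =
    if (i : ℕ) + 1 = (j : ℕ) then ((Real.sqrt ((j : ℕ) * ((n : ℝ) + 1 - (j : ℕ))) : ℝ) : ℂ)
      else 0 := rfl

theorem sqrt_sq_aux (n : ℕ) (j : Fin (n + 1)) :
    ((Real.sqrt ((j : ℕ) * ((n : ℝ) + 1 - (j : ℕ))) : ℝ) : ℂ) *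
      ((Real.sqrt ((j : ℕ) * ((n : ℝ) + 1 - (j : ℕ))) : ℝ) : ℂ) =
      ((j : ℕ) : ℂ) * ((n : ℂ) + 1 - ((j : ℕ) : ℂ)) := by
  rw [← Complex.ofReal_mul, Real.mul_self_sqrt]
  · push_cast; ring
  · have h1 : ((j : ℕ) : ℝ) ≤ n := by exact_mod_cast Nat.lt_succ_iff.1 j.2
    have h2 : (0 : ℝ) ≤ ((j : ℕ) : ℝ) := by positivity
    nlinarith

theorem spinMinus_mul_spinPlus (n : ℕ) : (spinPlus n)ᴴ * spinPlus n =
    diagonal fun j : Fin (n + 1) => ((j : ℕ) : ℂ) * ((n : ℂ) + 1 - ((j : ℕ) : ℂ)) := by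
  ext i j
  rw [mul_apply, diagonal_apply]
  simp only [conjTranspose_apply, spinPlus_apply]
  by_cases hij : i = j
  · subst hij
    rw [if_pos rfl]
    rcases Nat.eq_zero_or_pos (i : ℕ) with h0 | h0
    · rw [Finset.sum_eq_zero]
      · rw [h0]; simp
      · intro k _
        rw [if_neg (by omega)]; simp
    · have hlt : (i : ℕ) - 1 < n + 1 := by omega
      rw [Finset.sum_eq_single (⟨(i : ℕ) - 1, hlt⟩ : Fin (n + 1))]
      · rw [if_pos (by simp; omega)]
        rw [RCLike.star_def, Complex.conj_ofReal, sqrt_sq_aux]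
      · intro k _ hk
        rw [if_neg]
        · simp
        · intro h
          apply hk
          ext
          simp
          omega
      · intro h; exact absurd (Finset.mem_univ _) h
  · rw [if_neg hij]
    apply Finset.sum_eq_zero
    intro k _
    by_cases h1 : (k : ℕ) + 1 = i
    · rw [if_neg (fun h2 => hij (Fin.ext (by omega)) : ¬ (k : ℕ) + 1 = j), mul_zero]
    · rw [if_neg h1]; simp

theorem spinPlus_mul_spinMinus (n : ℕ) : spinPlus n * (spinPlus n)ᴴ =
    diagonal fun j : Fin (n + 1) => (((j : ℕ) : ℂ) + 1) * ((n : ℂ) - ((j : ℕ) : ℂ)) := by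
  ext i j
  rw [mul_apply, diagonal_apply]
  simp only [conjTranspose_apply, spinPlus_apply]
  by_cases hij : i = j
  · subst hij
    rw [if_pos rfl]
    by_cases h0 : (i : ℕ) = n
    · rw [Finset.sum_eq_zero]
      · rw [h0]; simp
      · intro k _
        rw [if_neg (by omega)]; simp
    · have hlt : (i : ℕ) + 1 < n + 1 := by omega
      rw [Finset.sum_eq_single (⟨(i : ℕ) + 1, hlt⟩ : Fin (n + 1))]
      · rw [if_pos rfl]
        rw [RCLike.star_def, Complex.conj_ofReal, sqrt_sq_aux]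
        push_cast
        ring
      · intro k _ hk
        rw [if_neg]
        · simp
        · intro h
          apply hk
          ext
          simp
          omega
      · intro h; exact absurd (Finset.mem_univ _) h
  · rw [if_neg hij]
    apply Finset.sum_eq_zero
    intro k _
    by_cases h1 : (i : ℕ) + 1 = k
    · rw [if_neg (fun h2 => hij (Fin.ext (by omega)) : ¬ (j : ℕ) + 1 = k), star_zero, mul_zero]
    · rw [if_neg h1]; simp

theorem comm_plus_minus (n : ℕ) : spinPlus n * (spinPlus n)ᴴ - (spinPlus n)ᴴ * spinPlus n =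
    (2 : ℂ) • spinZ n := by
  rw [spinPlus_mul_spinMinus, spinMinus_mul_spinPlus, diagonal_sub, spinZ, ← diagonal_smul]
  congr 1
  ext j
  simp only [Pi.smul_apply, smul_eq_mul]
  ring

theorem comm_z_plus (n : ℕ) : spinZ n * spinPlus n - spinPlus n * spinZ n = spinPlus n := by
  ext i j
  rw [Matrix.sub_apply, spinZ, diagonal_mul, mul_diagonal, spinPlus_apply]
  split_ifs with h
  · have : ((j : ℕ) : ℂ) = ((i : ℕ) : ℂ) + 1 := by exact_mod_cast h.symm
    rw [this]; ring
  · simp

theorem comm_z_minus (n : ℕ) : spinZ n * (spinPlus n)ᴴ - (spinPlus n)ᴴ * spinZ n =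
    -(spinPlus n)ᴴ := by
  have h := congrArg conjTranspose (comm_z_plus n)
  rw [conjTranspose_sub, conjTranspose_mul, conjTranspose_mul, spinZ_conjTranspose] at h
  rw [← neg_sub, h]

theorem spin_zero (n : ℕ) : spin n 0 = (1 / 2 : ℂ) • (spinPlus n + (spinPlus n)ᴴ) := rfl
theorem spin_one (n : ℕ) : spin n 1 = (-Complex.I / 2) • (spinPlus n - (spinPlus n)ᴴ) := rfl
theorem spin_two (n : ℕ) : spin n 2 = spinZ n := rfl

theorem spin_isHermitian (n : ℕ) (a : Fin 3) : (spin n a).IsHermitian := by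
  fin_cases a
  · change (spin n 0)ᴴ = spin n 0
    rw [spin_zero, conjTranspose_smul, conjTranspose_add, conjTranspose_conjTranspose,
      add_comm (spinPlus n)ᴴ]
    congr 1
    simp
  · change (spin n 1)ᴴ = spin n 1
    rw [spin_one, conjTranspose_smul, conjTranspose_sub, conjTranspose_conjTranspose]
    rw [← neg_sub (spinPlus n), smul_neg, ← neg_smul]
    congr 1
    simp
    ring
  · exact spinZ_conjTranspose n

/-- `[S¹, S²] = i S³` -/
theorem spin_comm01 (n : ℕ) : spin n 0 * spin n 1 - spin n 1 * spin n 0 =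
    Complex.I • spin n 2 := by
  have h := comm_plus_minus n
  rw [spin_zero, spin_one, spin_two]
  have h2 : spinZ n = (1 / 2 : ℂ) • (spinPlus n * (spinPlus n)ᴴ - (spinPlus n)ᴴ * spinPlus n) := by
    rw [h, smul_smul]; norm_num
  rw [h2]
  simp only [smul_mul_assoc, mul_smul_comm, smul_smul, add_mul, mul_add, sub_mul, mul_sub,
    smul_add, smul_sub]
  module

/-- `[S², S³] = i S¹` -/
theorem spin_comm12 (n : ℕ) : spin n 1 * spin n 2 - spin n 2 * spin n 1 =
    Complex.I • spin n 0 := by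
  have h1 := comm_z_plus n
  have h2 := comm_z_minus n
  rw [spin_zero, spin_one, spin_two]
  have e1 : spinZ n * spinPlus n = spinPlus n + spinPlus n * spinZ n := by
    rw [← sub_eq_iff_eq_add]; exact h1
  have e2 : spinZ n * (spinPlus n)ᴴ = -(spinPlus n)ᴴ + (spinPlus n)ᴴ * spinZ n := by
    rw [← sub_eq_iff_eq_add]; exact h2
  simp only [smul_mul_assoc, mul_smul_comm, smul_smul, add_mul, mul_add, sub_mul, mul_sub,
    smul_add, smul_sub, e1, e2]
  module

/-- `[S³, S¹] = i S²` -/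
theorem spin_comm20 (n : ℕ) : spin n 2 * spin n 0 - spin n 0 * spin n 2 =
    Complex.I • spin n 1 := by
  have h1 := comm_z_plus n
  have h2 := comm_z_minus n
  rw [spin_zero, spin_one, spin_two]
  have e1 : spinZ n * spinPlus n = spinPlus n + spinPlus n * spinZ n := by
    rw [← sub_eq_iff_eq_add]; exact h1
  have e2 : spinZ n * (spinPlus n)ᴴ = -(spinPlus n)ᴴ + (spinPlus n)ᴴ * spinZ n := by
    rw [← sub_eq_iff_eq_add]; exact h2
  have e3 : Complex.I * (-Complex.I / 2) = 1 / 2 := by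
    rw [mul_div_assoc', mul_neg, Complex.I_mul_I]; norm_num
  simp only [smul_mul_assoc, mul_smul_comm, smul_smul, add_mul, mul_add, sub_mul, mul_sub,
    smul_add, smul_sub, e1, e2, e3]
  module

/-- `∑ₐ (Sᵃ)² = S (S + 1)` with `S = n / 2`. -/
theorem spin_casimir (n : ℕ) : ∑ a : Fin 3, spin n a * spin n a =
    ((n : ℂ) / 2 * ((n : ℂ) / 2 + 1)) • (1 : Matrix (Fin (n + 1)) (Fin (n + 1)) ℂ) := by
  rw [Fin.sum_univ_three, spin_zero, spin_one, spin_two]
  have e3 : (-Complex.I / 2) * (-Complex.I / 2) = -(1 / 4) := by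
    have : (-Complex.I / 2) * (-Complex.I / 2) = (Complex.I * Complex.I) / 4 := by ring
    rw [this, Complex.I_mul_I]; ring
  have e4 : ((1 / 2 : ℂ) • (spinPlus n + (spinPlus n)ᴴ)) * ((1 / 2 : ℂ) • (spinPlus n + (spinPlus n)ᴴ))
      + ((-Complex.I / 2) • (spinPlus n - (spinPlus n)ᴴ)) *
        ((-Complex.I / 2) • (spinPlus n - (spinPlus n)ᴴ)) =
      (1 / 2 : ℂ) • (spinPlus n * (spinPlus n)ᴴ + (spinPlus n)ᴴ * spinPlus n) := by
    simp only [smul_mul_assoc, mul_smul_comm, smul_smul, add_mul, mul_add, sub_mul, mul_sub,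
      smul_add, smul_sub, e3]
    module
  rw [e4, spinPlus_mul_spinMinus, spinMinus_mul_spinPlus, spinZ, diagonal_mul_diagonal,
    diagonal_add, ← diagonal_smul, diagonal_add, ← diagonal_one, ← diagonal_smul]
  congr 1
  ext j
  simp only [Pi.smul_apply, smul_eq_mul]
  ring

section Many

variable {V : Type*} [DecidableEq V] [Fintype V]

/-- `S_x · S_y` in terms of raising and lowering operators -/
theorem dot_eq (n : ℕ) {x y : V} :
    ∑ a : Fin 3, siteOp x (spin n a) * siteOp y (spin n a) =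
      siteOp x (spinZ n) * siteOp y (spinZ n) +
      (1 / 2 : ℂ) • (siteOp x (spinPlus n) * siteOp y (spinPlus n)ᴴ +
        siteOp x (spinPlus n)ᴴ * siteOp y (spinPlus n)) := by
  rw [Fin.sum_univ_three, spin_zero, spin_one, spin_two]
  simp only [siteOp_smul, siteOp_add, siteOp_sub]
  have e3 : (-Complex.I / 2) * (-Complex.I / 2) = -(1 / 4) := by
    have : (-Complex.I / 2) * (-Complex.I / 2) = (Complex.I * Complex.I) / 4 := by ring
    rw [this, Complex.I_mul_I]; ring
  simp only [smul_mul_assoc, mul_smul_comm, smul_smul, add_mul, mul_add, sub_mul, mul_sub,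
    smul_add, smul_sub, e3]
  module

end Many

end Vale.Agent.P361
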